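import Vale.Agent.P092.H560.Rk5
import Vale.Agent.P092.H729.Rk4
import Vale.Agent.P092.H411.RkLoc

/-!
P092, TEAM N, **[N-RK]** : `rkStmt : H618.RkStmt` (helper560; with H729/{Rk1,Rk2,Zo,Rk4},
H411/{RkLoc,RkAgr}, paper #5439 (2) / N-TEXT N6).
-/

set_option linter.all false

open scoped InnerProductSpace
open Set Filter Topology ContinuousLinearMap

namespace Vale.Agent.P092.H560

open Vale.Agent.P092.H618 (RkData RkOut Nin TGeo)
open Vale.Agent.P092.H729.Rk (pj R JX q)

theorem locH_of {N : ℕ} {Y : ℕ → Type} [∀ d, MetricSpace (Y d)] [∀ d, CompactSpace (Y d)]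
    {I : ∀ i j, Y i → Y j → Prop} (D : TGeo N Y I) : LocH N I where
  cl d := D.closed d N
  refl := D.refl N
  loc d h1 h2 := H411.RkLoc.loc D h1 h2
  inc i j hi hij hj u h hn := H411.RkLoc.loci' D hi hij hj (isClosed_tsupport u)
    (isClosed_tsupport h) fun y hy y' hy' => hn y hy y' hy'
  incN i hi hiN u h hn := H411.RkLoc.loci_top D (isClosed_tsupport u)
    (isClosed_tsupport h) fun y hy y' hy' => hn y hy y' hy'

/-- **[N-RK]** -/
theorem rkStmt : Vale.Agent.P092.H618.RkStmt := by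
  intro K _ _ _ N Y _ _ I S R' Γ H _ _ _ _ _ lamG π W lam bet hne D
  refine rkOut (locH_of D.tgeo) hne D (fun c => H729.Rk.q_pt D c) (fun M f ξ => ?_)
    (fun c u U hU hu ξ => H729.Rk.bet_mem D c hU hu ξ)
  have := H729.Rk.lam_mem D M (subset_refl (tsupport f)) ξ
  rwa [H729.Rk.hyp_top D] at this

end Vale.Agent.P092.H560
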