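import Vale.Agent.P092.H560.RkDefs

/-!
P092, TEAM N, [N-RK] (helper560): orthogonal families of projections, strong limits.
-/

set_option linter.all false

open scoped InnerProductSpace
open Set Filter Topology ContinuousLinearMap

namespace Vale.Agent.P092.H560

variable {H Y Y₁ K : Type*} [TopologicalSpace H] [MetricSpace Y] [MetricSpace Y₁]
  [NormedAddCommGroup K] [InnerProductSpace ℂ K] [CompleteSpace K]

/-! ### Orthogonal families -/

/-- orthogonal projections with sum `1` -/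
structure Orth {ι : Type*} [Fintype ι] (E : ι → (K →L[ℂ] K)) : Prop where
  adj : ∀ i, adjoint (E i) = E i
  idem : ∀ i, E i * E i = E i
  orth : ∀ i j, i ≠ j → E i * E j = 0
  sum : ∑ i, E i = 1

theorem Part.toOrth {p : Set H → (K →L[ℂ] K)} {I : Y → H → Prop} {η : ℝ} {N : ℕ}
    {e : Fin N → (K →L[ℂ] K)} {y : Fin N → Y} (h : Part p I η e y) : Orth e :=
  ⟨h.adj, h.idem, h.orth, h.sum⟩

section orth

variable {ι : Type*} [Fintype ι] {E : ι → (K →L[ℂ] K)}

theorem Orth.inner_eq (h : Orth E) {i j : ι} (hij : i ≠ j) (ζ ξ : K) :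
    ⟪E i ζ, E j ξ⟫_ℂ = 0 := by
  have h1 : ⟪E i ζ, E j ξ⟫_ℂ = ⟪ζ, (E i * E j) ξ⟫_ℂ := by
    have := ContinuousLinearMap.adjoint_inner_right (E i) ζ (E j ξ)
    rw [h.adj] at this
    exact this.symm
  rw [h1, h.orth i j hij]; simp

/-- Pythagoras. -/
theorem Orth.norm_sq (h : Orth E) (c : ι → ℂ) (ζ : K) :
    ‖∑ i, c i • E i ζ‖ ^ 2 = ∑ i, ‖c i‖ ^ 2 * ‖E i ζ‖ ^ 2 := by
  classical
  have h1 : ((‖∑ i, c i • E i ζ‖ ^ 2 : ℝ) : ℂ) = ⟪∑ i, c i • E i ζ, ∑ i, c i • E i ζ⟫_ℂ := by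
    rw [inner_self_eq_norm_sq_to_K]; norm_cast
  have h2 : ⟪∑ i, c i • E i ζ, ∑ i, c i • E i ζ⟫_ℂ =
      ((∑ i, ‖c i‖ ^ 2 * ‖E i ζ‖ ^ 2 : ℝ) : ℂ) := by
    rw [sum_inner, Complex.ofReal_sum]
    refine Finset.sum_congr rfl fun i _ => ?_
    rw [inner_sum, Finset.sum_eq_single i]
    · rw [inner_smul_left, inner_smul_right, inner_self_eq_norm_sq_to_K, ← mul_assoc,
        Complex.conj_mul']
      push_cast; rfl
    · intro j _ hj
      rw [inner_smul_left, inner_smul_right, h.inner_eq hj.symm]; simp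
    · intro hi; exact absurd (Finset.mem_univ i) hi
  exact_mod_cast h1.trans h2

theorem Orth.sum_norm_sq (h : Orth E) (ζ : K) : ∑ i, ‖E i ζ‖ ^ 2 = ‖ζ‖ ^ 2 := by
  have h1 := h.norm_sq (fun _ => 1) ζ
  simp only [one_smul, norm_one, one_pow, one_mul] at h1
  rw [← h1, ← ContinuousLinearMap.sum_apply, h.sum]; rfl

/-- The norm of a combination, if the large coefficients do not occur. -/
theorem Orth.norm_le (h : Orth E) (c : ι → ℂ) (ζ : K) {κ : ℝ} (hκ : 0 ≤ κ)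
    (hc : ∀ i, E i ζ ≠ 0 → ‖c i‖ ≤ κ) : ‖∑ i, c i • E i ζ‖ ≤ κ * ‖ζ‖ := by
  have h1 : ‖∑ i, c i • E i ζ‖ ^ 2 ≤ (κ * ‖ζ‖) ^ 2 := by
    rw [h.norm_sq, mul_pow, ← h.sum_norm_sq, Finset.mul_sum]
    refine Finset.sum_le_sum fun i _ => ?_
    by_cases hi : E i ζ = 0
    · rw [hi]; simp
    · exact mul_le_mul_of_nonneg_right (pow_le_pow_left₀ (norm_nonneg _) (hc i hi) 2)
        (sq_nonneg _)
  exact (sq_le_sq₀ (norm_nonneg _) (mul_nonneg hκ (norm_nonneg _))).1 h1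

/-- The common refinement of two commuting families. -/
theorem Orth.mul {ι' : Type*} [Fintype ι'] {E' : ι' → (K →L[ℂ] K)} (h : Orth E) (h' : Orth E')
    (hc : ∀ i j, Commute (E i) (E' j)) : Orth fun q : ι × ι' => E q.1 * E' q.2 where
  adj q := by
    rw [← star_eq_adjoint, star_mul, star_eq_adjoint, star_eq_adjoint, h.adj, h'.adj]
    exact (hc _ _).eq.symm
  idem q := by
    calc E q.1 * E' q.2 * (E q.1 * E' q.2) = E q.1 * (E' q.2 * E q.1) * E' q.2 := by
          simp only [mul_assoc]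
      _ = (E q.1 * E q.1) * (E' q.2 * E' q.2) := by rw [← (hc _ _).eq]; simp only [mul_assoc]
      _ = _ := by rw [h.idem, h'.idem]
  orth q q' hq := by
    have e1 : E q.1 * E' q.2 * (E q'.1 * E' q'.2) = (E q.1 * E q'.1) * (E' q.2 * E' q'.2) := by
      calc E q.1 * E' q.2 * (E q'.1 * E' q'.2) = E q.1 * (E' q.2 * E q'.1) * E' q'.2 := by
            simp only [mul_assoc]
        _ = _ := by rw [← (hc _ _).eq]; simp only [mul_assoc]
    rw [e1]
    by_cases h1 : q.1 = q'.1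
    · have h2 : q.2 ≠ q'.2 := fun h2 => hq (Prod.ext h1 h2)
      rw [h'.orth _ _ h2, mul_zero]
    · rw [h.orth _ _ h1, zero_mul]
  sum := by
    rw [Fintype.sum_prod_type]
    simp only [← Finset.mul_sum, h'.sum, mul_one, h.sum]

end orth

/-! ### `Σ f(y_i) e_i` -/

/-- `Σ f(y_i) e_i` as a `*`-homomorphism -/
noncomputable def AAh {N : ℕ} {e : Fin N → (K →L[ℂ] K)} (h : Orth e) (y : Fin N → Y) :
    C(Y, ℂ) →⋆ₐ[ℂ] (K →L[ℂ] K) where
  toFun := AA e y
  map_one' := by simp [AA, h.sum]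
  map_mul' f g := by
    simp only [AA, ContinuousMap.mul_apply]
    rw [Finset.sum_mul_sum]
    refine Finset.sum_congr rfl fun i _ => ?_
    rw [Finset.sum_eq_single i]
    · rw [smul_mul_smul_comm, h.idem]
    · intro j _ hj
      rw [smul_mul_smul_comm, h.orth _ _ hj.symm, smul_zero]
    · intro hi; exact absurd (Finset.mem_univ i) hi
  map_zero' := by simp [AA]
  map_add' f g := by simp [AA, add_smul, Finset.sum_add_distrib]
  commutes' c := by
    simp only [AA]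
    have : ∀ i, (algebraMap ℂ C(Y, ℂ) c) (y i) = c := fun i => rfl
    simp only [this, ← Finset.smul_sum, h.sum]
    rw [Algebra.algebraMap_eq_smul_one]
  map_star' f := by
    simp only [AA, star_sum, star_smul]
    refine Finset.sum_congr rfl fun i _ => ?_
    rw [star_eq_adjoint, h.adj]; rfl

theorem AAh_apply {N : ℕ} {e : Fin N → (K →L[ℂ] K)} (h : Orth e) (y : Fin N → Y) (f : C(Y, ℂ)) :
    AAh h y f = AA e y f := rfl

theorem AA_apply {N : ℕ} (e : Fin N → (K →L[ℂ] K)) (y : Fin N → Y) (f : C(Y, ℂ)) (ζ : K) :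
    AA e y f ζ = ∑ i, f (y i) • e i ζ := by
  simp [AA, ContinuousLinearMap.sum_apply]

theorem norm_AA_le [CompactSpace Y] {N : ℕ} {e : Fin N → (K →L[ℂ] K)} (h : Orth e)
    (y : Fin N → Y) (f : C(Y, ℂ)) : ‖AA e y f‖ ≤ ‖f‖ :=
  NonUnitalStarAlgHom.norm_apply_le (AAh h y) f

/-! ### Strong limits of `*`-homomorphisms -/

theorem exists_strong_lim [CompactSpace Y] (A : ℕ → (C(Y, ℂ) →⋆ₐ[ℂ] (K →L[ℂ] K)))
    (hA : ∀ f ζ, CauchySeq fun n => A n f ζ) :
    ∃ G : C(Y, ℂ) →⋆ₐ[ℂ] (K →L[ℂ] K), ∀ f ζ, Tendsto (fun n => A n f ζ) atTop (𝓝 (G f ζ)) := by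
  have hb : ∀ n f, ‖A n f‖ ≤ ‖f‖ := fun n f => NonUnitalStarAlgHom.norm_apply_le (A n) f
  choose F hF using fun f ζ => cauchySeq_tendsto_of_complete (hA f ζ)
  have hT : ∀ f, ∃ T : K →L[ℂ] K, ∀ ζ, T ζ = F f ζ := by
    intro f
    refine ⟨ContinuousLinearMap.ofTendstoOfBoundedRange (F f) (fun n => A n f)
      (tendsto_pi_nhds.2 (hF f)) ?_, fun ζ => rfl⟩
    rw [isBounded_iff_forall_norm_le]
    exact ⟨‖f‖, by rintro _ ⟨n, rfl⟩; exact hb n f⟩
  choose T hTF using hT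
  have hlim : ∀ f ζ, Tendsto (fun n => A n f ζ) atTop (𝓝 (T f ζ)) := fun f ζ => by
    rw [hTF]; exact hF f ζ
  have hmul : ∀ f g ζ, Tendsto (fun n => A n f (A n g ζ)) atTop (𝓝 (T f (T g ζ))) := by
    intro f g ζ
    have h1 : Tendsto (fun n => A n f (A n g ζ - T g ζ)) atTop (𝓝 0) := by
      refine squeeze_zero_norm (fun n => ?_)
        (a := fun n => ‖f‖ * ‖A n g ζ - T g ζ‖) ?_
      · exact (ContinuousLinearMap.le_opNorm _ _).trans
          (mul_le_mul_of_nonneg_right (hb n f) (norm_nonneg _))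
      · have := (tendsto_iff_norm_sub_tendsto_zero.1 (hlim g ζ)).const_mul ‖f‖
        simpa using this
    have h2 := h1.add (hlim f (T g ζ))
    rw [zero_add] at h2
    refine h2.congr fun n => ?_
    rw [map_sub]; abel
  refine ⟨{ toFun := T, map_one' := ?_, map_mul' := ?_, map_zero' := ?_, map_add' := ?_,
            commutes' := ?_, map_star' := ?_ }, hlim⟩
  · ext ζ
    refine tendsto_nhds_unique (hlim 1 ζ) ?_
    simp only [map_one]
    exact tendsto_const_nhds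
  · intro f g
    ext ζ
    refine tendsto_nhds_unique (hlim (f * g) ζ) ?_
    refine (hmul f g ζ).congr fun n => ?_
    rw [map_mul]; rfl
  · ext ζ
    refine tendsto_nhds_unique (hlim 0 ζ) ?_
    simp only [map_zero]
    exact tendsto_const_nhds
  · intro f g
    ext ζ
    refine tendsto_nhds_unique (hlim (f + g) ζ) ?_
    refine ((hlim f ζ).add (hlim g ζ)).congr fun n => ?_
    rw [map_add]; rfl
  · intro c
    ext ζ
    refine tendsto_nhds_unique (hlim _ ζ) ?_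
    simp only [AlgHomClass.commutes]
    exact tendsto_const_nhds
  · intro f
    ext ζ
    refine ext_inner_left ℂ fun ξ => ?_
    have h1 : Tendsto (fun n => ⟪ξ, A n (star f) ζ⟫_ℂ) atTop (𝓝 ⟪ξ, T (star f) ζ⟫_ℂ) :=
      tendsto_const_nhds.inner (hlim (star f) ζ)
    have h2 : Tendsto (fun n => ⟪A n f ξ, ζ⟫_ℂ) atTop (𝓝 ⟪T f ξ, ζ⟫_ℂ) :=
      (hlim f ξ).inner tendsto_const_nhds
    have h3 : ⟪ξ, star (T f) ζ⟫_ℂ = ⟪T f ξ, ζ⟫_ℂ := by
      rw [star_eq_adjoint, ContinuousLinearMap.adjoint_inner_right]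
    rw [h3]
    refine tendsto_nhds_unique h1 (h2.congr fun n => ?_)
    rw [map_star, star_eq_adjoint, ContinuousLinearMap.adjoint_inner_right]

end Vale.Agent.P092.H560
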