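import Vale.Agent.P092.H560.Rk1

/-!
P092, TEAM N, [N-RK] (helper560): existence of fine partitions, the main estimate, existence of
the calculus.
-/

set_option linter.all false

open scoped InnerProductSpace
open Set Filter Topology ContinuousLinearMap

namespace Vale.Agent.P092.H560

variable {H Y Y₁ K : Type*} [TopologicalSpace H] [MetricSpace Y] [MetricSpace Y₁]
  [NormedAddCommGroup K] [InnerProductSpace ℂ K] [CompleteSpace K]

/-! ### Closed-set families -/

theorem CPV.comm {p : Set H → (K →L[ℂ] K)} (hp : CPV p) {C D : Set H} (hC : IsClosed C)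
    (hD : IsClosed D) : Commute (p C) (p D) := by
  change p C * p D = p D * p C
  rw [hp.mul C D hC hD, hp.mul D C hD hC, inter_comm]

theorem CPV.of_subset {p : Set H → (K →L[ℂ] K)} (hp : CPV p) {C D : Set H} (hC : IsClosed C)
    (hD : IsClosed D) (h : C ⊆ D) : p C * p D = p C := by
  rw [hp.mul C D hC hD, inter_eq_left.2 h]

theorem CPV.of_subset' {p : Set H → (K →L[ℂ] K)} (hp : CPV p) {C D : Set H} (hC : IsClosed C)
    (hD : IsClosed D) (h : C ⊆ D) : p D * p C = p C := by
  rw [hp.mul D C hD hC, inter_eq_right.2 h]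

theorem CPV.idem {p : Set H → (K →L[ℂ] K)} (hp : CPV p) {C : Set H} (hC : IsClosed C) :
    p C * p C = p C := by rw [hp.mul C C hC hC, inter_self]

theorem hat_empty (I : Y → H → Prop) : hat I (∅ : Set Y) = ∅ := by
  ext z; simp [hat]

theorem hat_mono (I : Y → H → Prop) {O O' : Set Y} (h : O ⊆ O') : hat I O ⊆ hat I O' :=
  fun z ⟨y, hy, hz⟩ => ⟨y, h hy, hz⟩

theorem isClosed_hat [CompactSpace Y] {I : Y → H → Prop}
    (hI : IsClosed {q : Y × H | I q.1 q.2}) {O : Set Y} (hO : IsClosed O) :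
    IsClosed (hat I O) := by
  have h : hat I O = Prod.snd '' ({q : Y × H | I q.1 q.2} ∩ (Prod.fst ⁻¹' O)) := by
    ext z
    constructor
    · rintro ⟨y, hy, hz⟩; exact ⟨(y, z), ⟨hz, hy⟩, rfl⟩
    · rintro ⟨⟨y, z'⟩, ⟨h1, h2⟩, rfl⟩; exact ⟨y, h2, h1⟩
  rw [h]
  exact isClosedMap_snd_of_compactSpace _ (hI.inter (hO.preimage continuous_fst))

theorem NN_mono {p : Set H → (K →L[ℂ] K)} {I : Y → H → Prop} {ε ε' : ℝ} (h : ε' ≤ ε) :
    NN p I ε ≤ NN p I ε' := fun ζ hζ O hO =>
  hζ O ⟨hO.1, fun y hy y' hy' => (hO.2 y hy y' hy').trans h⟩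

theorem Part.mono {p : Set H → (K →L[ℂ] K)} {I : Y → H → Prop} {η η' : ℝ} {N : ℕ}
    {e : Fin N → (K →L[ℂ] K)} {y : Fin N → Y} (h : Part p I η e y) (hη : η ≤ η') :
    Part p I η' e y :=
  ⟨h.adj, h.idem, h.orth, h.sum, fun i => by
    obtain ⟨O, hO, hy, he⟩ := h.le i
    exact ⟨O, ⟨hO.1, fun y hy y' hy' => (hO.2 y hy y' hy').trans hη⟩, hy, he⟩, h.com⟩

/-! ### Disjointification of commuting projections -/

/-- `∏_{j<i} (1 - q j)` -/
noncomputable def rr (q : ℕ → (K →L[ℂ] K)) : ℕ → (K →L[ℂ] K)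
  | 0 => 1
  | i + 1 => (1 - q i) * rr q i

section disj

variable {q : ℕ → (K →L[ℂ] K)}

theorem rr_com {T : K →L[ℂ] K} (h : ∀ i, Commute T (q i)) (i : ℕ) : Commute T (rr q i) := by
  induction i with
  | zero => exact Commute.one_right _
  | succ i ih => exact ((Commute.one_right _).sub_right (h i)).mul_right ih

theorem rr_adj (ha : ∀ i, adjoint (q i) = q i) (hc : ∀ i j, Commute (q i) (q j)) (i : ℕ) :
    adjoint (rr q i) = rr q i := by
  induction i with
  | zero =>
    change adjoint (1 : K →L[ℂ] K) = 1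
    rw [← star_eq_adjoint, star_one]
  | succ i ih =>
    change adjoint ((1 - q i) * rr q i) = (1 - q i) * rr q i
    rw [← star_eq_adjoint, star_mul, star_sub, star_one, star_eq_adjoint, star_eq_adjoint, ih,
      ha i]
    exact (((Commute.one_left _).sub_left (rr_com (hc i) i)).eq).symm

theorem rr_idem (hi : ∀ i, q i * q i = q i) (hc : ∀ i j, Commute (q i) (q j)) (i : ℕ) :
    rr q i * rr q i = rr q i := by
  induction i with
  | zero => exact one_mul _
  | succ i ih =>
    change (1 - q i) * rr q i * ((1 - q i) * rr q i) = (1 - q i) * rr q i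
    have h1 : Commute (1 - q i) (rr q i) := (Commute.one_left _).sub_left (rr_com (hc i) i)
    have h2 : (1 - q i) * (1 - q i) = 1 - q i := by
      rw [sub_mul, one_mul, mul_sub, mul_one, hi]; abel
    calc (1 - q i) * rr q i * ((1 - q i) * rr q i)
        = (1 - q i) * (rr q i * (1 - q i)) * rr q i := by simp only [mul_assoc]
      _ = ((1 - q i) * (1 - q i)) * (rr q i * rr q i) := by rw [← h1.eq]; simp only [mul_assoc]
      _ = _ := by rw [h2, ih]

theorem q_rr (hi : ∀ i, q i * q i = q i) (hc : ∀ i j, Commute (q i) (q j)) {i j : ℕ}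
    (h : i < j) : q i * rr q j = 0 := by
  induction j with
  | zero => exact absurd h (Nat.not_lt_zero _)
  | succ j ih =>
    change q i * ((1 - q j) * rr q j) = 0
    rcases Nat.lt_succ_iff_lt_or_eq.1 h with h | rfl
    · have : Commute (q i) (1 - q j) := (Commute.one_right _).sub_right (hc i j)
      rw [← mul_assoc, this.eq, mul_assoc, ih h, mul_zero]
    · rw [← mul_assoc, mul_sub, mul_one, hi, sub_self, zero_mul]

theorem orth_disj (ha : ∀ i, adjoint (q i) = q i) (hi : ∀ i, q i * q i = q i)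
    (hc : ∀ i j, Commute (q i) (q j)) {N : ℕ} (hN : rr q N = 0) :
    Orth fun i : Fin N => q i * rr q i where
  adj i := by
    rw [← star_eq_adjoint, star_mul, star_eq_adjoint, star_eq_adjoint, rr_adj ha hc, ha]
    exact (rr_com (hc i) i).eq.symm
  idem i := by
    have h1 : Commute (q i) (rr q i) := rr_com (hc i) i
    calc q i * rr q i * (q i * rr q i) = q i * (rr q i * q i) * rr q i := by simp only [mul_assoc]
      _ = (q i * q i) * (rr q i * rr q i) := by rw [← h1.eq]; simp only [mul_assoc]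
      _ = _ := by rw [hi, rr_idem hi hc]
  orth i j hij := by
    have key : ∀ a b : ℕ, a < b → q a * rr q a * (q b * rr q b) = 0 := by
      intro a b hab
      have h1 : Commute (q b) (rr q b) := rr_com (hc b) b
      have h2 : Commute (q a) (rr q a) := rr_com (hc a) a
      rw [h1.eq, h2.eq, ← mul_assoc, mul_assoc (rr q a), q_rr hi hc hab, mul_zero, zero_mul]
    have key' : ∀ a b : ℕ, a < b → q b * rr q b * (q a * rr q a) = 0 := by
      intro a b hab
      have h1 : Commute (q a) (rr q b) := rr_com (hc a) b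
      rw [mul_assoc, ← mul_assoc (rr q b), ← h1.eq, q_rr hi hc hab, zero_mul, mul_zero]
    rcases lt_or_gt_of_ne (fun h => hij (Fin.ext h) : (i : ℕ) ≠ j) with h | h
    · exact key _ _ h
    · exact key' _ _ h
  sum := by
    have h1 : ∀ n, ∑ i ∈ Finset.range n, q i * rr q i = 1 - rr q n := by
      intro n
      induction n with
      | zero => simp [rr]
      | succ n ih =>
        rw [Finset.sum_range_succ, ih]
        change 1 - rr q n + q n * rr q n = 1 - (1 - q n) * rr q n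
        rw [sub_mul, one_mul]; abel
    have h2 := h1 N
    rw [hN, sub_zero, Finset.sum_range] at h2
    exact h2

end disj

/-! ### Existence of fine partitions -/

theorem exists_part [CompactSpace Y] {p : Set H → (K →L[ℂ] K)} {I : Y → H → Prop} (hp : CPV p)
    (hI : IsClosed {q : Y × H | I q.1 q.2}) (hF : Full p I) {η : ℝ} (hη : 0 < η) :
    ∃ (N : ℕ) (e : Fin N → (K →L[ℂ] K)) (y : Fin N → Y), Part p I η e y ∧ Strong p e := by
  classical
  obtain ⟨t, -, htf, htc⟩ := finite_cover_balls_of_compact (isCompact_univ (X := Y))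
    (show 0 < η / 4 by linarith)
  set N := htf.toFinset.card with hN
  let φ := htf.toFinset.equivFin
  let y : Fin N → Y := fun i => (φ.symm i : Y)
  have hy : ∀ z : Y, ∃ i, dist z (y i) < η / 4 := by
    intro z
    have hz := htc (mem_univ z)
    rw [mem_iUnion₂] at hz
    obtain ⟨x, hx, hzx⟩ := hz
    refine ⟨φ ⟨x, htf.mem_toFinset.2 hx⟩, ?_⟩
    simp only [y, Equiv.symm_apply_apply]
    exact hzx
  let B : Fin N → Set Y := fun i => Metric.closedBall (y i) (η / 2)
  have hB : ∀ i, Sm η (B i) := fun i => ⟨Metric.isClosed_closedBall, fun a ha b hb => by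
    have h1 := Metric.mem_closedBall.1 ha
    have h2 := Metric.mem_closedBall'.1 hb
    linarith [dist_triangle a (y i) b]⟩
  have hBc : ∀ i, IsClosed (hat I (B i)) := fun i => isClosed_hat hI (hB i).1
  let q : ℕ → (K →L[ℂ] K) := fun i => if h : i < N then p (hat I (B ⟨i, h⟩)) else 0
  have hq : ∀ i : Fin N, q i = p (hat I (B i)) := fun i => by simp [q]
  have ha : ∀ i, adjoint (q i) = q i := by
    intro i
    by_cases h : i < N
    · simp only [q, dif_pos h]; exact hp.adj _ (hBc _)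
    · simp only [q, dif_neg h]; exact map_zero _
  have hi : ∀ i, q i * q i = q i := by
    intro i
    by_cases h : i < N
    · simp only [q, dif_pos h]; exact hp.idem (hBc _)
    · simp only [q, dif_neg h]; exact mul_zero _
  have hcT : ∀ T : K →L[ℂ] K, (∀ C, IsClosed C → Commute T (p C)) → ∀ i, Commute T (q i) := by
    intro T hT i
    by_cases h : i < N
    · simp only [q, dif_pos h]; exact hT _ (hBc _)
    · simp only [q, dif_neg h]; exact Commute.zero_right _
  have hcC : ∀ C, IsClosed C → ∀ i, Commute (q i) (p C) := fun C hC i =>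
    (hcT (p C) (fun D hD => hp.comm hC hD) i).symm
  have hc : ∀ i j, Commute (q i) (q j) := fun i j => hcT (q i) (fun C hC => hcC C hC i) j
  have hr : rr q N = 0 := by
    have h1 : ∀ ζ : K, rr q N ζ ∈ NN p I (η / 4) := by
      intro ζ O hO
      rcases O.eq_empty_or_nonempty with rfl | ⟨z, hz⟩
      · rw [hat_empty, hp.empty]; rfl
      · obtain ⟨i, hzi⟩ := hy z
        have hsub : O ⊆ B i := fun a ha => by
          have := hO.2 a ha z hz
          exact Metric.mem_closedBall.2 (by linarith [dist_triangle a z (y i)])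
        have h2 : p (hat I O) * p (hat I (B i)) = p (hat I O) :=
          hp.of_subset (isClosed_hat hI hO.1) (hBc i) (hat_mono I hsub)
        have h3 : p (hat I O) * rr q N = 0 := by
          rw [← h2, ← hq, mul_assoc, q_rr hi hc i.2, mul_zero]
        exact congrArg (fun T : K →L[ℂ] K => T ζ) h3
    ext ζ
    have := h1 ζ
    rw [hF _ (by linarith)] at this
    simpa using this
  have ho := orth_disj ha hi hc hr
  refine ⟨N, fun i => q i * rr q i, y, ⟨ho.adj, ho.idem, ho.orth, ho.sum, fun i => ?_, ?_⟩, ?_⟩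
  · refine ⟨B i, hB i, Metric.mem_closedBall_self (by linarith), ?_⟩
    rw [← hq, ← mul_assoc, hi]
  · intro i C hC
    exact (hcC C hC i).mul_left (rr_com (fun j => (hcC C hC j).symm) i).symm
  · intro i T hT
    exact (hcT T hT i).mul_right (rr_com (hcT T hT) i)

/-! ### The main estimate -/

theorem AA_sub_eq {N N' : ℕ} {e : Fin N → (K →L[ℂ] K)} {e' : Fin N' → (K →L[ℂ] K)} (h : Orth e)
    (h' : Orth e') (y : Fin N → Y) (y' : Fin N' → Y) (f : C(Y, ℂ)) (ζ : K) :
    AA e y f ζ - AA e' y' f ζ =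
      ∑ q : Fin N × Fin N', (f (y q.1) - f (y' q.2)) • (e q.1 * e' q.2) ζ := by
  have h1 : AA e y f ζ = ∑ q : Fin N × Fin N', f (y q.1) • (e q.1 * e' q.2) ζ := by
    rw [AA_apply, Fintype.sum_prod_type]
    refine Finset.sum_congr rfl fun i _ => ?_
    change f (y i) • e i ζ = ∑ j, f (y i) • (e i * e' j) ζ
    rw [← Finset.smul_sum]
    congr 1
    rw [← ContinuousLinearMap.sum_apply, ← Finset.mul_sum, h'.sum, mul_one]
  have h2 : AA e' y' f ζ = ∑ q : Fin N × Fin N', f (y' q.2) • (e q.1 * e' q.2) ζ := by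
    rw [AA_apply, Fintype.sum_prod_type, Finset.sum_comm]
    refine Finset.sum_congr rfl fun j _ => ?_
    change f (y' j) • e' j ζ = ∑ i, f (y' j) • (e i * e' j) ζ
    rw [← Finset.smul_sum]
    congr 1
    rw [← ContinuousLinearMap.sum_apply, ← Finset.sum_mul, h.sum, one_mul]
  rw [h1, h2, ← Finset.sum_sub_distrib]
  simp only [sub_smul]

/-- If `e ≤ p (hat O)`, `e' ≤ p (hat O')` and `hat O ∩ hat O' ⊆ hat O₁`, then `e e'` kills the
vectors orthogonal to `p (hat O₁)`. -/
theorem kill {p : Set H → (K →L[ℂ] K)} (hp : CPV p) {C C' C₁ : Set H} (hC : IsClosed C)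
    (hC' : IsClosed C') (hC₁ : IsClosed C₁) (hsub : C ∩ C' ⊆ C₁) {e e' : K →L[ℂ] K}
    (he : p C * e = e) (he' : p C' * e' = e') (hc : Commute e' (p C))
    (hc1 : Commute e (p C')) (hce : ∀ D, IsClosed D → Commute e (p D))
    (hce' : ∀ D, IsClosed D → Commute e' (p D)) {ζ : K} (hζ : p C₁ ζ = 0) :
    (e * e') ζ = 0 := by
  have h1 : e * e' = e * e' * (p C * p C') * p C₁ := by
    have e1 : e = e * p C := by rw [(hce C hC).eq, he]
    have e2 : e' = e' * p C' := by rw [(hce' C' hC').eq, he']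
    calc e * e' = (e * p C) * (e' * p C') := by rw [← e1, ← e2]
      _ = e * (p C * e') * p C' := by simp only [mul_assoc]
      _ = e * (e' * p C) * p C' := by rw [hc.eq]
      _ = e * e' * (p C * p C') := by simp only [mul_assoc]
      _ = e * e' * (p (C ∩ C') * p C₁) := by
          rw [hp.of_subset (hC.inter hC') hC₁ hsub, hp.mul _ _ hC hC']
      _ = _ := by rw [hp.mul _ _ hC hC']; simp only [mul_assoc]
  rw [h1, ContinuousLinearMap.mul_apply, hζ, map_zero]

/-- **The main estimate.** -/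
theorem est [CompactSpace Y] [CompactSpace Y₁] {p : Set H → (K →L[ℂ] K)} {I : Y → H → Prop}
    {I₁ : Y₁ → H → Prop} (hp : CPV p) (hI : IsClosed {q : Y × H | I q.1 q.2})
    (hI₁ : IsClosed {q : Y₁ × H | I₁ q.1 q.2}) (hL : LOC I I₁) (f : C(Y, ℂ)) {ε : ℝ} (hε : 0 < ε)
    {κ : ℝ} (hκ : 0 < κ) :
    ∃ η > 0, ∀ {N N' : ℕ} {e : Fin N → (K →L[ℂ] K)} {e' : Fin N' → (K →L[ℂ] K)}
      {y : Fin N → Y} {y' : Fin N' → Y}, Part p I η e y → Part p I η e' y' →
      (∀ i j, Commute (e i) (e' j)) → ∀ ζ ∈ NN p I₁ ε,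
        ‖AA e y f ζ - AA e' y' f ζ‖ ≤ κ * ‖ζ‖ := by
  have hf : UniformContinuous f := CompactSpace.uniformContinuous_of_continuous f.continuous
  obtain ⟨r, hr, hfr⟩ := Metric.uniformContinuous_iff.1 hf κ hκ
  obtain ⟨η₀, hη₀, hL0⟩ := hL (r / 4) (by linarith) ε hε
  refine ⟨min η₀ (r / 4), lt_min hη₀ (by linarith), fun hP hP' hcom ζ hζ => ?_⟩
  rename_i N N' e e' y y'
  have hP0 := hP.mono (min_le_left η₀ (r / 4))
  have hP0' := hP'.mono (min_le_left η₀ (r / 4))
  have hO := hP.toOrth.mul hP'.toOrth hcom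
  rw [AA_sub_eq hP.toOrth hP'.toOrth]
  refine hO.norm_le (fun q : Fin N × Fin N' => f (y q.1) - f (y' q.2)) ζ hκ.le
    (fun q hq => ?_)
  obtain ⟨O, hOs, hyO, heO⟩ := hP.le q.1
  obtain ⟨O', hOs', hyO', heO'⟩ := hP'.le q.2
  by_cases hfar : ∀ a ∈ O, ∀ b ∈ O', r / 4 ≤ dist a b
  · exfalso
    apply hq
    have hs : Sm η₀ O := ⟨hOs.1, fun a ha b hb => (hOs.2 a ha b hb).trans (min_le_left _ _)⟩
    have hs' : Sm η₀ O' := ⟨hOs'.1, fun a ha b hb => (hOs'.2 a ha b hb).trans (min_le_left _ _)⟩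
    obtain ⟨O₁, hO₁, hsub⟩ := hL0 O O' hs hs' hfar
    exact kill hp (isClosed_hat hI hOs.1) (isClosed_hat hI hOs'.1) (isClosed_hat hI₁ hO₁.1) hsub
      heO heO' (hP'.com _ _ (isClosed_hat hI hOs.1)) (hP.com _ _ (isClosed_hat hI hOs'.1))
      (fun D hD => hP.com _ D hD) (fun D hD => hP'.com _ D hD) (hζ O₁ hO₁)
  · push Not at hfar
    obtain ⟨a, ha, b, hb, hab⟩ := hfar
    have h1 : dist (y q.1) a ≤ r / 4 := (hOs.2 _ hyO a ha).trans (min_le_right _ _)
    have h2 : dist b (y' q.2) ≤ r / 4 := (hOs'.2 b hb _ hyO').trans (min_le_right _ _)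
    have h3 : dist (y q.1) (y' q.2) < r := by
      have := dist_triangle4 (y q.1) a b (y' q.2)
      linarith
    have h4 := hfr h3
    rw [dist_eq_norm] at h4
    exact h4.le

/-- **Existence of the calculus.** -/
theorem exists_calc [CompactSpace Y] [CompactSpace Y₁] {p : Set H → (K →L[ℂ] K)}
    {I : Y → H → Prop} {I₁ : Y₁ → H → Prop} (hp : CPV p) (hI : IsClosed {q : Y × H | I q.1 q.2})
    (hI₁ : IsClosed {q : Y₁ × H | I₁ q.1 q.2}) (hL : LOC I I₁) (hF : Full p I)
    (hN : Null p I₁) : ∃ G : C(Y, ℂ) →⋆ₐ[ℂ] (K →L[ℂ] K), Calc p I G := by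
  have hpos : ∀ n : ℕ, (0 : ℝ) < 1 / ((n : ℝ) + 1) := fun n => by positivity
  choose N e y hP hS using fun n : ℕ => exists_part hp hI hF (hpos n)
  have hcom : ∀ n m i j, Commute (e n i) (e m j) := fun n m i j =>
    hS m j (e n i) fun C hC => (hP n).com i C hC
  obtain ⟨G, hG⟩ := exists_strong_lim (fun n => AAh (hP n).toOrth (y n)) (by
    intro f ζ
    rw [Metric.cauchySeq_iff']
    intro κ hκ
    obtain ⟨ε, hε, ζ', hζ', hζζ'⟩ := hN ζ (κ / (4 * (‖f‖ + 1))) (by positivity)
    obtain ⟨η, hη, hest⟩ := est hp hI hI₁ hL f hε (show 0 < κ / (4 * (‖ζ'‖ + 1)) by positivity)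
    obtain ⟨n₀, hn₀⟩ := exists_nat_one_div_lt hη
    refine ⟨n₀, fun n hn => ?_⟩
    have hmesh : ∀ m ≥ n₀, Part p I η (e m) (y m) := fun m hm => by
      refine (hP m).mono (le_of_lt (lt_of_le_of_lt ?_ hn₀))
      exact one_div_le_one_div_of_le (by positivity) (by exact_mod_cast Nat.add_le_add_right hm 1)
    have h1 : ‖AA (e n) (y n) f ζ' - AA (e n₀) (y n₀) f ζ'‖ ≤ κ / 4 := by
      refine (hest (hmesh n hn) (hmesh n₀ le_rfl) (hcom n n₀) ζ' hζ').trans ?_
      rw [div_mul_eq_mul_div, div_le_iff₀ (by positivity)]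
      nlinarith [norm_nonneg ζ']
    have h2 : ∀ m, ‖AA (e m) (y m) f (ζ - ζ')‖ ≤ κ / 4 := fun m => by
      refine (ContinuousLinearMap.le_opNorm _ _).trans ?_
      refine (mul_le_mul (norm_AA_le (hP m).toOrth (y m) f) hζζ' (norm_nonneg _)
        (norm_nonneg _)).trans ?_
      rw [mul_div_assoc', div_le_iff₀ (by positivity)]
      nlinarith [norm_nonneg f]
    have h3 : AA (e n) (y n) f ζ - AA (e n₀) (y n₀) f ζ =
        AA (e n) (y n) f (ζ - ζ') + (AA (e n) (y n) f ζ' - AA (e n₀) (y n₀) f ζ') -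
          AA (e n₀) (y n₀) f (ζ - ζ') := by
      rw [map_sub, map_sub]; abel
    rw [dist_eq_norm]
    change ‖AA (e n) (y n) f ζ - AA (e n₀) (y n₀) f ζ‖ < κ
    rw [h3]
    have h4 := norm_sub_le (AA (e n) (y n) f (ζ - ζ') +
      (AA (e n) (y n) f ζ' - AA (e n₀) (y n₀) f ζ')) (AA (e n₀) (y n₀) f (ζ - ζ'))
    have h5 := norm_add_le (AA (e n) (y n) f (ζ - ζ'))
      (AA (e n) (y n) f ζ' - AA (e n₀) (y n₀) f ζ')
    linarith [h2 n, h2 n₀])
  refine ⟨G, ⟨fun T hT f => ?_, fun f ζ κ hκ η hη => ?_⟩⟩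
  · change T * G f = G f * T
    ext ζ
    have h1 : Tendsto (fun n => T (AA (e n) (y n) f ζ)) atTop (𝓝 (T (G f ζ))) :=
      (T.continuous.tendsto _).comp (hG f ζ)
    have h2 : Tendsto (fun n => AA (e n) (y n) f (T ζ)) atTop (𝓝 (G f (T ζ))) := hG f (T ζ)
    refine tendsto_nhds_unique h1 (h2.congr fun n => ?_)
    rw [AA_apply, AA_apply, map_sum]
    refine Finset.sum_congr rfl fun i _ => ?_
    rw [map_smul]
    congr 1
    exact (congrArg (fun S : K →L[ℂ] K => S ζ) (hS n i T hT).eq).symm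
  · obtain ⟨n₀, hn₀⟩ := exists_nat_one_div_lt hη
    have h1 := (Metric.tendsto_atTop.1 (hG f ζ)) κ hκ
    obtain ⟨n₁, hn₁⟩ := h1
    refine ⟨N (max n₀ n₁), e (max n₀ n₁), y (max n₀ n₁), (hP _).mono ?_, hS _, ?_⟩
    · refine le_of_lt (lt_of_le_of_lt ?_ hn₀)
      exact one_div_le_one_div_of_le (by positivity)
        (by exact_mod_cast Nat.add_le_add_right (le_max_left n₀ n₁) 1)
    · have := hn₁ (max n₀ n₁) (le_max_right _ _)
      rw [dist_eq_norm] at this
      exact this.le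

end Vale.Agent.P092.H560
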