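import Vale.Agent.P092.H560.Rk2
import Vale.Agent.P092.H218.Loc

/-!
P092, TEAM N, [N-RK] (helper560): uniqueness of the calculus, comparison for `p₁ ≤ p₂`, transport,
incidence of nested calculi, and `G = β` for a calculus `β` with `β u p (hat O) = β u`.
-/

set_option linter.all false

open scoped InnerProductSpace
open Set Filter Topology ContinuousLinearMap

namespace Vale.Agent.P092.H560

variable {H Y Y' Y₁ K : Type*} [TopologicalSpace H] [MetricSpace Y] [MetricSpace Y']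
  [MetricSpace Y₁] [NormedAddCommGroup K] [InnerProductSpace ℂ K] [CompleteSpace K]

theorem Null.ext {p : Set H → (K →L[ℂ] K)} {I : Y → H → Prop} (hN : Null p I) {T : K →L[ℂ] K}
    (h : ∀ ε > 0, ∀ ζ ∈ NN p I ε, T ζ = 0) : T = 0 := by
  ext ζ
  have hcl : ζ ∈ closure {ζ : K | T ζ = 0} := by
    rw [Metric.mem_closure_iff]
    intro κ hκ
    obtain ⟨ε, hε, ζ', hζ', hd⟩ := hN ζ (κ / 2) (by linarith)
    refine ⟨ζ', h ε hε ζ' hζ', ?_⟩
    rw [dist_eq_norm]; linarith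
  have : IsClosed {ζ : K | T ζ = 0} := isClosed_eq T.continuous continuous_const
  rw [this.closure_eq] at hcl
  exact hcl

theorem eq_zero_of_norm_le {x : K} (C : ℝ) (h : ∀ κ > 0, ‖x‖ ≤ κ * C) : x = 0 := by
  by_contra hx
  have hx' : 0 < ‖x‖ := norm_pos_iff.2 hx
  have h1 := h (‖x‖ / (2 * (|C| + 1))) (by positivity)
  have h2 : ‖x‖ / (2 * (|C| + 1)) * C ≤ ‖x‖ / 2 := by
    rw [div_mul_eq_mul_div, div_le_div_iff₀ (by positivity) (by norm_num)]
    nlinarith [le_abs_self C, abs_nonneg C]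
  linarith

/-- A strong partition for the smaller family is a partition for the larger one. -/
theorem Part.trans_le {p₁ p₂ : Set H → (K →L[ℂ] K)} {I : Y → H → Prop} [CompactSpace Y]
    (hI : IsClosed {q : Y × H | I q.1 q.2})
    (hle : ∀ C, IsClosed C → p₂ C * p₁ C = p₁ C)
    (hcom : ∀ C D, IsClosed C → IsClosed D → Commute (p₁ C) (p₂ D)) {η : ℝ} {N : ℕ}
    {e : Fin N → (K →L[ℂ] K)} {y : Fin N → Y} (h : Part p₁ I η e y) (hs : Strong p₁ e) :
    Part p₂ I η e y :=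
  ⟨h.adj, h.idem, h.orth, h.sum, fun i => by
    obtain ⟨O, hO, hy, he⟩ := h.le i
    refine ⟨O, hO, hy, ?_⟩
    rw [← he, ← mul_assoc, hle _ (isClosed_hat hI hO.1)], fun i C hC =>
    (hs i (p₂ C) fun D hD => (hcom D C hD hC).symm).symm⟩

/-- **Comparison.** -/
theorem calc_eq [CompactSpace Y] [CompactSpace Y₁] {p₁ p₂ : Set H → (K →L[ℂ] K)}
    {I : Y → H → Prop} {I₁ : Y₁ → H → Prop} (hp₂ : CPV p₂)
    (hI : IsClosed {q : Y × H | I q.1 q.2}) (hI₁ : IsClosed {q : Y₁ × H | I₁ q.1 q.2})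
    (hL : LOC I I₁) (hN : Null p₂ I₁) (hle : ∀ C, IsClosed C → p₂ C * p₁ C = p₁ C)
    (hcom : ∀ C D, IsClosed C → IsClosed D → Commute (p₁ C) (p₂ D))
    {G₁ G₂ : C(Y, ℂ) →⋆ₐ[ℂ] (K →L[ℂ] K)} (h₁ : Calc p₁ I G₁) (h₂ : Calc p₂ I G₂) :
    ∀ f, G₁ f = G₂ f := by
  intro f
  rw [← sub_eq_zero]
  refine hN.ext fun ε hε ζ hζ => ?_
  refine eq_zero_of_norm_le (‖ζ‖ + 2) fun κ hκ => ?_
  obtain ⟨η, hη, hest⟩ := est hp₂ hI hI₁ hL f hε hκ
  obtain ⟨N, e, y, hP, hS, hd⟩ := h₁.ap f ζ κ hκ η hη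
  obtain ⟨N', e', y', hP', hS', hd'⟩ := h₂.ap f ζ κ hκ η hη
  have hP2 := hP.trans_le hI hle hcom hS
  have h3 := hest hP2 hP' (fun i j => hS' j (e i) fun C hC => hP2.com i C hC) ζ hζ
  have h4 : (G₁ f - G₂ f) ζ = -(AA e y f ζ - G₁ f ζ) + (AA e y f ζ - AA e' y' f ζ) +
      (AA e' y' f ζ - G₂ f ζ) := by
    rw [ContinuousLinearMap.sub_apply]; abel
  rw [h4]
  have h5 := norm_add_le (-(AA e y f ζ - G₁ f ζ) + (AA e y f ζ - AA e' y' f ζ))
    (AA e' y' f ζ - G₂ f ζ)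
  have h6 := norm_add_le (-(AA e y f ζ - G₁ f ζ)) (AA e y f ζ - AA e' y' f ζ)
  rw [norm_neg] at h6
  linarith

/-- **Uniqueness.** -/
theorem calc_unique [CompactSpace Y] [CompactSpace Y₁] {p : Set H → (K →L[ℂ] K)}
    {I : Y → H → Prop} {I₁ : Y₁ → H → Prop} (hp : CPV p)
    (hI : IsClosed {q : Y × H | I q.1 q.2}) (hI₁ : IsClosed {q : Y₁ × H | I₁ q.1 q.2})
    (hL : LOC I I₁) (hN : Null p I₁) {G₁ G₂ : C(Y, ℂ) →⋆ₐ[ℂ] (K →L[ℂ] K)} (h₁ : Calc p I G₁)
    (h₂ : Calc p I G₂) : ∀ f, G₁ f = G₂ f :=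
  calc_eq hp hI hI₁ hL hN (fun C hC => hp.idem hC) (fun C D hC hD => hp.comm hC hD) h₁ h₂

/-! ### Transport -/

/-- conjugation by an invertible isometry -/
noncomputable def conj (U V : K →L[ℂ] K) (hUV : U * V = 1) (hVU : V * U = 1)
    (hU : adjoint U = V) (τ : C(Y, Y)) (G : C(Y, ℂ) →⋆ₐ[ℂ] (K →L[ℂ] K)) :
    C(Y, ℂ) →⋆ₐ[ℂ] (K →L[ℂ] K) where
  toFun f := U * G (f.comp τ) * V
  map_one' := by
    change U * G 1 * V = 1
    rw [map_one, mul_one, hUV]
  map_mul' f g := by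
    change U * G ((f.comp τ) * (g.comp τ)) * V = _
    rw [map_mul]
    calc U * (G (f.comp τ) * G (g.comp τ)) * V = U * G (f.comp τ) * 1 * G (g.comp τ) * V := by
          simp only [mul_assoc, one_mul]
      _ = _ := by rw [← hVU]; simp only [mul_assoc]
  map_zero' := by
    change U * G 0 * V = 0
    rw [map_zero, mul_zero, zero_mul]
  map_add' f g := by
    change U * G ((f.comp τ) + (g.comp τ)) * V = _
    rw [map_add, mul_add, add_mul]
  commutes' r := by
    change U * G (algebraMap ℂ C(Y, ℂ) r) * V = _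
    rw [AlgHomClass.commutes, Algebra.algebraMap_eq_smul_one, mul_smul_comm, mul_one,
      smul_mul_assoc, hUV]
  map_star' f := by
    change U * G (star (f.comp τ)) * V = star (U * G (f.comp τ) * V)
    have hV : star V = U := by rw [star_eq_adjoint, ← hU, adjoint_adjoint]
    have hU' : star U = V := hU
    rw [map_star, star_mul, star_mul, hV, hU', mul_assoc]

theorem conj_apply (U V : K →L[ℂ] K) (hUV : U * V = 1) (hVU : V * U = 1)
    (hU : adjoint U = V) (τ : C(Y, Y)) (G : C(Y, ℂ) →⋆ₐ[ℂ] (K →L[ℂ] K)) (f : C(Y, ℂ)) :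
    conj U V hUV hVU hU τ G f = U * G (f.comp τ) * V := rfl

theorem Calc.map [CompactSpace Y] {p p' : Set H → (K →L[ℂ] K)} {I : Y → H → Prop}
    {G : C(Y, ℂ) →⋆ₐ[ℂ] (K →L[ℂ] K)} (h : Calc p I G) (hI : IsClosed {q : Y × H | I q.1 q.2})
    (U V : K →L[ℂ] K) (hUV : U * V = 1) (hVU : V * U = 1) (hU : adjoint U = V) (τ : C(Y, Y))
    (θ : H ≃ₜ H) (hp' : ∀ C, IsClosed C → p' C = U * p (θ ⁻¹' C) * V)
    (hIτ : ∀ y z, I y z → I (τ y) (θ z)) (hIτ' : ∀ y z, I (τ y) (θ z) → I y z) :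
    Calc p' I (conj U V hUV hVU hU τ G) := by
  have hVa : adjoint V = U := by rw [← hU, adjoint_adjoint]
  have key : ∀ T : K →L[ℂ] K, (∀ C, IsClosed C → Commute T (p' C)) →
      ∀ D, IsClosed D → Commute (V * T * U) (p D) := by
    intro T hT D hD
    have hD' : IsClosed (θ.symm ⁻¹' D) := hD.preimage θ.symm.continuous
    have h1 := hT _ hD'
    have h2 : p' (θ.symm ⁻¹' D) = U * p D * V := by
      rw [hp' _ hD']
      congr 3
      ext z; simp
    rw [h2] at h1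
    change V * T * U * p D = p D * (V * T * U)
    have h3 : T * (U * p D * V) = U * p D * V * T := h1
    calc V * T * U * p D = V * T * U * p D * (V * U) := by rw [hVU, mul_one]
      _ = V * (T * (U * p D * V)) * U := by simp only [mul_assoc]
      _ = V * (U * p D * V * T) * U := by rw [h3]
      _ = (V * U) * p D * (V * T * U) := by simp only [mul_assoc]
      _ = _ := by rw [hVU, one_mul]
  have back : ∀ T A : K →L[ℂ] K, Commute (V * T * U) A → Commute T (U * A * V) := by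
    intro T A hTA
    change T * (U * A * V) = U * A * V * T
    have h3 : V * T * U * A = A * (V * T * U) := hTA
    calc T * (U * A * V) = (U * V) * T * (U * A * V) := by rw [hUV, one_mul]
      _ = U * (V * T * U * A) * V := by simp only [mul_assoc]
      _ = U * (A * (V * T * U)) * V := by rw [h3]
      _ = U * A * V * T * (U * V) := by simp only [mul_assoc]
      _ = _ := by rw [hUV, mul_one]
  refine ⟨fun T hT f => ?_, fun f ζ κ hκ η hη => ?_⟩
  · rw [conj_apply]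
    exact back T _ (h.cm _ (key T hT) _)
  · have hτ : UniformContinuous τ := CompactSpace.uniformContinuous_of_continuous τ.continuous
    obtain ⟨δ, hδ, hd⟩ := Metric.uniformContinuous_iff.1 hτ η hη
    obtain ⟨N, e, y, hP, hS, hap⟩ := h.ap (f.comp τ) (V ζ) κ hκ (δ / 2) (by linarith)
    have hc : ∀ a b : K →L[ℂ] K, U * a * V * (U * b * V) = U * (a * b) * V := by
      intro a b
      calc U * a * V * (U * b * V) = U * a * (V * U) * b * V := by simp only [mul_assoc]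
        _ = _ := by rw [hVU, mul_one]; simp only [mul_assoc]
    refine ⟨N, fun i => U * e i * V, fun i => τ (y i), ⟨fun i => ?_, fun i => ?_,
      fun i j hij => ?_, ?_, fun i => ?_, fun i C hC => ?_⟩, fun i T hT => ?_, ?_⟩
    · rw [← star_eq_adjoint, star_mul, star_mul, star_eq_adjoint, star_eq_adjoint,
        star_eq_adjoint, hVa, hU, hP.adj, mul_assoc]
    · rw [hc, hP.idem]
    · rw [hc, hP.orth i j hij, mul_zero, zero_mul]
    · rw [← Finset.sum_mul, ← Finset.mul_sum, hP.sum, mul_one, hUV]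
    · obtain ⟨O, hO, hyO, he⟩ := hP.le i
      have hO' : IsClosed (τ '' O) := (hO.1.isCompact.image τ.continuous).isClosed
      refine ⟨τ '' O, ⟨hO', ?_⟩, ⟨_, hyO, rfl⟩, ?_⟩
      · rintro _ ⟨a, ha, rfl⟩ _ ⟨b, hb, rfl⟩
        exact (hd (lt_of_le_of_lt (hO.2 a ha b hb) (by linarith))).le
      · have h1 : θ ⁻¹' (hat I (τ '' O)) = hat I O := by
          ext z
          constructor
          · rintro ⟨_, ⟨a, ha, rfl⟩, hz⟩
            exact ⟨a, ha, hIτ' _ _ hz⟩
          · rintro ⟨a, ha, hz⟩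
            exact ⟨τ a, ⟨a, ha, rfl⟩, hIτ _ _ hz⟩
        rw [hp' _ (isClosed_hat hI hO'), h1, hc, he]
    · have h1 : Commute (e i) (p (θ ⁻¹' C)) := hP.com i _ (hC.preimage θ.continuous)
      change U * e i * V * p' C = p' C * (U * e i * V)
      rw [hp' C hC, hc, hc, h1.eq]
    · exact back T _ (hS i _ (key T hT))
    · have h1 : AA (fun i => U * e i * V) (fun i => τ (y i)) f ζ =
          U (AA e y (f.comp τ) (V ζ)) := by
        rw [AA_apply, AA_apply, map_sum]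
        refine Finset.sum_congr rfl fun i _ => ?_
        rw [map_smul]; rfl
      have h2 : (conj U V hUV hVU hU τ G) f ζ = U (G (f.comp τ) (V ζ)) := rfl
      rw [h1, h2, ← map_sub]
      have h3 : ∀ x, ‖U x‖ = ‖x‖ := by
        intro x
        have h4 : ⟪U x, U x⟫_ℂ = ⟪x, x⟫_ℂ := by
          rw [← ContinuousLinearMap.adjoint_inner_right, hU]
          have : V (U x) = x := congrArg (fun T : K →L[ℂ] K => T x) hVU
          rw [this]
        rw [inner_self_eq_norm_sq_to_K, inner_self_eq_norm_sq_to_K] at h4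
        have h5 : ‖U x‖ ^ 2 = ‖x‖ ^ 2 := by exact_mod_cast h4
        exact (sq_eq_sq₀ (norm_nonneg _) (norm_nonneg _)).1 h5
      rw [h3]
      exact hap

/-! ### Incidence -/

theorem calc_inc [CompactSpace Y] [CompactSpace Y'] [CompactSpace Y₁]
    {p p' : Set H → (K →L[ℂ] K)} {I : Y → H → Prop} {I' : Y' → H → Prop} {I₁ : Y₁ → H → Prop}
    (hp' : CPV p') (hI : IsClosed {q : Y × H | I q.1 q.2})
    (hI' : IsClosed {q : Y' × H | I' q.1 q.2}) (hI₁ : IsClosed {q : Y₁ × H | I₁ q.1 q.2})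
    (hle : ∀ C, IsClosed C → p' C * p C = p C)
    (hcom : ∀ C D, IsClosed C → IsClosed D → Commute (p C) (p' D))
    (hN : Null p' I₁) {G : C(Y, ℂ) →⋆ₐ[ℂ] (K →L[ℂ] K)} {G' : C(Y', ℂ) →⋆ₐ[ℂ] (K →L[ℂ] K)}
    (h : Calc p I G) (h' : Calc p' I' G') (u : C(Y, ℂ)) (v : C(Y', ℂ))
    (hloc : ∀ ε > 0, ∃ η > 0, ∀ O O', Sm η O → Sm η O' → (O ∩ tsupport u).Nonempty →
      (O' ∩ tsupport v).Nonempty → ∃ O₁, Sm ε O₁ ∧ hat I O ∩ hat I' O' ⊆ hat I₁ O₁) :
    G u * G' v = 0 := by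
  refine hN.ext fun ε hε ζ hζ => ?_
  obtain ⟨η, hη, hl⟩ := hloc ε hε
  refine eq_zero_of_norm_le (‖G u‖ + 1) fun κ hκ => ?_
  obtain ⟨N', e', y', hP', hS', hd'⟩ := h'.ap v ζ κ hκ η hη
  obtain ⟨N, e, y, hP, hS, hd⟩ := h.ap u (AA e' y' v ζ) κ hκ η hη
  have hP2 := hP.trans_le (p₂ := p') hI hle hcom hS
  have h0 : AA e y u (AA e' y' v ζ) = 0 := by
    rw [AA_apply]
    refine Finset.sum_eq_zero fun i _ => ?_
    rw [AA_apply, map_sum, Finset.smul_sum]
    refine Finset.sum_eq_zero fun j _ => ?_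
    rw [map_smul]
    by_cases h1 : u (y i) = 0
    · rw [h1, zero_smul]
    by_cases h2 : v (y' j) = 0
    · rw [h2, zero_smul, smul_zero]
    obtain ⟨O, hO, hyO, he⟩ := hP2.le i
    obtain ⟨O', hO', hyO', he'⟩ := hP'.le j
    obtain ⟨O₁, hO₁, hsub⟩ := hl O O' hO hO' ⟨_, hyO, subset_tsupport _ h1⟩
      ⟨_, hyO', subset_tsupport _ h2⟩
    have h3 : (e i * e' j) ζ = 0 :=
      kill hp' (isClosed_hat hI hO.1) (isClosed_hat hI' hO'.1) (isClosed_hat hI₁ hO₁.1) hsub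
        he he' (hP'.com _ _ (isClosed_hat hI hO.1)) (hP2.com _ _ (isClosed_hat hI' hO'.1))
        (fun D hD => hP2.com _ D hD) (fun D hD => hP'.com _ D hD) (hζ O₁ hO₁)
    change u (y i) • v (y' j) • (e i * e' j) ζ = 0
    rw [h3, smul_zero, smul_zero]
  rw [h0, zero_sub, norm_neg] at hd
  have h1 : (G u * G' v) ζ = G u (AA e' y' v ζ) - G u (AA e' y' v ζ - G' v ζ) := by
    rw [map_sub, sub_sub_cancel]; rfl
  rw [h1]
  have h2 := norm_sub_le (G u (AA e' y' v ζ)) (G u (AA e' y' v ζ - G' v ζ))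
  have h3 := ((G u).le_opNorm (AA e' y' v ζ - G' v ζ)).trans
    (mul_le_mul_of_nonneg_left hd' (norm_nonneg _))
  linarith

/-! ### `G = β` -/

theorem exists_split [CompactSpace Y] {η : ℝ} (hη : 0 < η) :
    ∃ (n : ℕ) (φ : Fin n → C(Y, ℂ)), (∀ k, ∃ O, Sm η O ∧ tsupport (φ k) ⊆ O) ∧
      ∑ k, φ k = 1 := by
  classical
  obtain ⟨t, -, htf, htc⟩ := finite_cover_balls_of_compact (isCompact_univ (X := Y))
    (show 0 < η / 2 by linarith)
  set N := htf.toFinset.card with hN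
  let ψ := htf.toFinset.equivFin
  let y : Fin N → Y := fun i => (ψ.symm i : Y)
  have hy : ∀ z : Y, ∃ i, dist z (y i) < η / 2 := by
    intro z
    have hz := htc (mem_univ z)
    rw [mem_iUnion₂] at hz
    obtain ⟨x, hx, hzx⟩ := hz
    refine ⟨ψ ⟨x, htf.mem_toFinset.2 hx⟩, ?_⟩
    simp only [y, Equiv.symm_apply_apply]
    exact hzx
  obtain ⟨f, hf⟩ := PartitionOfUnity.exists_isSubordinate (isClosed_univ (X := Y))
    (fun i => Metric.ball (y i) (η / 2)) (fun i => Metric.isOpen_ball)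
    (fun z _ => by obtain ⟨i, hi⟩ := hy z; exact mem_iUnion.2 ⟨i, hi⟩)
  refine ⟨N, fun k => ⟨fun x => ((f k x : ℝ) : ℂ), by fun_prop⟩, fun k =>
    ⟨Metric.closedBall (y k) (η / 2), ⟨Metric.isClosed_closedBall, fun a ha b hb => ?_⟩, ?_⟩, ?_⟩
  · have h1 := Metric.mem_closedBall.1 ha
    have h2 := Metric.mem_closedBall'.1 hb
    linarith [dist_triangle a (y k) b]
  · refine (closure_mono ?_).trans ((hf k).trans Metric.ball_subset_closedBall)
    intro x hx h0
    apply hx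
    change ((f k x : ℝ) : ℂ) = 0
    have : f k x = 0 := h0
    rw [this]; simp
  · ext x
    rw [ContinuousMap.coe_sum, Finset.sum_apply]
    change ∑ k, ((f k x : ℝ) : ℂ) = 1
    rw [← Complex.ofReal_sum]
    have h1 := f.sum_eq_one (mem_univ x)
    rw [finsum_eq_sum_of_fintype] at h1
    rw [h1]; simp

theorem calc_beta_mul [CompactSpace Y] [CompactSpace Y₁] {p : Set H → (K →L[ℂ] K)}
    {I : Y → H → Prop} {I₁ : Y₁ → H → Prop} (hp : CPV p)
    (hI : IsClosed {q : Y × H | I q.1 q.2}) (hI₁ : IsClosed {q : Y₁ × H | I₁ q.1 q.2})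
    (hL : LOC I I₁) (hN : Null p I₁) (β : C(Y, ℂ) →⋆ₐ[ℂ] (K →L[ℂ] K))
    (hβ : ∀ (u : C(Y, ℂ)) O, IsClosed O → tsupport u ⊆ O → β u * p (hat I O) = β u)
    {G : C(Y, ℂ) →⋆ₐ[ℂ] (K →L[ℂ] K)} (h : Calc p I G) (a b : C(Y, ℂ))
    (hab : Disjoint (tsupport a) (tsupport b)) : β a * G b = 0 := by
  refine hN.ext fun ε hε ζ hζ => ?_
  obtain ⟨r, hr, hrd⟩ := Metric.exists_pos_forall_lt_edist (isClosed_tsupport a).isCompact
    (isClosed_tsupport b) hab
  have hrd' : ∀ x ∈ tsupport a, ∀ y ∈ tsupport b, (r : ℝ) ≤ dist x y := by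
    intro x hx y hy
    have h1 := hrd x hx y hy
    rw [edist_nndist] at h1
    have h2 : r < nndist x y := by exact_mod_cast h1
    rw [← coe_nndist]
    exact_mod_cast h2.le
  have hr' : (0 : ℝ) < r := by exact_mod_cast hr
  obtain ⟨η₀, hη₀, hL0⟩ := hL (r / 3) (by linarith) ε hε
  set η := min η₀ (r / 3) with hη
  have hηp : 0 < η := lt_min hη₀ (by linarith)
  obtain ⟨n, φ, hφ, hs⟩ := exists_split (Y := Y) hηp
  have ha : a = ∑ k, a * φ k := by rw [← Finset.mul_sum, hs, mul_one]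
  rw [ContinuousLinearMap.mul_apply, ha, map_sum, ContinuousLinearMap.sum_apply]
  refine Finset.sum_eq_zero fun k _ => ?_
  obtain ⟨O', hO', hφO⟩ := hφ k
  set a' := a * φ k with ha'
  have ha1 : tsupport a' ⊆ O' := by
    refine (closure_mono ?_).trans hφO
    intro x hx h0
    apply hx
    change a x * φ k x = 0
    rw [h0, mul_zero]
  have ha2 : tsupport a' ⊆ tsupport a := by
    refine closure_mono ?_
    intro x hx h0
    apply hx
    change a x * φ k x = 0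
    rw [h0, zero_mul]
  rcases (tsupport a').eq_empty_or_nonempty with hem | ⟨x, hx⟩
  · have : a' = 0 := by
      have := tsupport_eq_empty_iff.1 hem
      ext x
      exact congrFun this x
    rw [this, map_zero]; rfl
  have hO'c := isClosed_hat hI hO'.1
  refine eq_zero_of_norm_le ‖β a'‖ fun κ hκ => ?_
  obtain ⟨N, e, y, hP, hS, hd⟩ := h.ap b ζ κ hκ η hηp
  have h0 : β a' (AA e y b ζ) = 0 := by
    rw [AA_apply, map_sum]
    refine Finset.sum_eq_zero fun i _ => ?_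
    rw [map_smul]
    by_cases h1 : b (y i) = 0
    · rw [h1, zero_smul]
    obtain ⟨O, hO, hyO, he⟩ := hP.le i
    have hOc := isClosed_hat hI hO.1
    have hfar : ∀ z ∈ O', ∀ w ∈ O, (r : ℝ) / 3 ≤ dist z w := by
      intro z hz w hw
      have h2 := hrd' x (ha2 hx) (y i) (subset_tsupport _ h1)
      have h3 : dist x z ≤ r / 3 := (hO'.2 x (ha1 hx) z hz).trans (min_le_right _ _)
      have h4 : dist w (y i) ≤ r / 3 := (hO.2 w hw _ hyO).trans (min_le_right _ _)
      linarith [dist_triangle4 x z w (y i)]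
    obtain ⟨O₁, hO₁, hsub⟩ := hL0 O' O
      ⟨hO'.1, fun z hz w hw => (hO'.2 z hz w hw).trans (min_le_left _ _)⟩
      ⟨hO.1, fun z hz w hw => (hO.2 z hz w hw).trans (min_le_left _ _)⟩ hfar
    have hO₁c := isClosed_hat hI₁ hO₁.1
    have h5 : β a' * e i = β a' * e i * (p (hat I O') * p (hat I O)) * p (hat I₁ O₁) := by
      have e1 : e i = e i * p (hat I O) := by rw [(hP.com i _ hOc).eq, he]
      calc β a' * e i = β a' * p (hat I O') * (e i * p (hat I O)) := by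
            rw [hβ a' O' hO'.1 ha1, ← e1]
        _ = β a' * (p (hat I O') * e i) * p (hat I O) := by simp only [mul_assoc]
        _ = β a' * (e i * p (hat I O')) * p (hat I O) := by rw [(hP.com i _ hO'c).eq]
        _ = β a' * e i * (p (hat I O') * p (hat I O)) := by simp only [mul_assoc]
        _ = β a' * e i * (p (hat I O' ∩ hat I O) * p (hat I₁ O₁)) := by
            rw [hp.of_subset (hO'c.inter hOc) hO₁c hsub, hp.mul _ _ hO'c hOc]
        _ = _ := by rw [hp.mul _ _ hO'c hOc]; simp only [mul_assoc]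
    have h6 : (β a' * e i) ζ = 0 := by
      rw [h5, ContinuousLinearMap.mul_apply, hζ O₁ hO₁, map_zero]
    change b (y i) • (β a' * e i) ζ = 0
    rw [h6, smul_zero]
  have h1 : β a' (G b ζ) = - β a' (AA e y b ζ - G b ζ) := by
    rw [map_sub, h0, zero_sub, neg_neg]
  rw [h1, norm_neg]
  have h2 := ((β a').le_opNorm (AA e y b ζ - G b ζ)).trans
    (mul_le_mul_of_nonneg_left hd (norm_nonneg _))
  linarith

theorem calc_beta [CompactSpace Y] [CompactSpace Y₁] {p : Set H → (K →L[ℂ] K)}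
    {I : Y → H → Prop} {I₁ : Y₁ → H → Prop} (hp : CPV p)
    (hI : IsClosed {q : Y × H | I q.1 q.2}) (hI₁ : IsClosed {q : Y₁ × H | I₁ q.1 q.2})
    (hL : LOC I I₁) (hN : Null p I₁) (β : C(Y, ℂ) →⋆ₐ[ℂ] (K →L[ℂ] K))
    (hβ : ∀ (u : C(Y, ℂ)) O, IsClosed O → tsupport u ⊆ O → β u * p (hat I O) = β u)
    {G : C(Y, ℂ) →⋆ₐ[ℂ] (K →L[ℂ] K)} (h : Calc p I G) : ∀ f, G f = β f := by
  intro f
  have h1 := Vale.Agent.P092.H218.loc_op β G (1 : K →L[ℂ] K) (fun a b hab =>
    calc_beta_mul hp hI hI₁ hL hN β hβ h a b hab) f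
  exact h1

end Vale.Agent.P092.H560
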