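import Mathlib

/-!
P092, TEAM N, [N-RK] (helper560): the rank count #5439 (2), letters.

`p` = closed-set family: for a closed set `C` of target hyperplanes `p C` is the projection onto the
vectors all of whose hyperplanes `M' ` (for all source hyperplanes `M ⊇ X`) lie in `C`.
`Y` = target subspaces of dimension `d`, `I y z` = the subspace `y` is contained in the
hyperplane `z`.
-/

set_option linter.all false

open scoped InnerProductSpace
open Set Filter Topology ContinuousLinearMap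

namespace Vale.Agent.P092.H560

variable {H Y Y₁ K : Type*} [TopologicalSpace H] [MetricSpace Y] [MetricSpace Y₁]
  [NormedAddCommGroup K] [InnerProductSpace ℂ K] [CompleteSpace K]

/-- A closed-set family of projections. -/
structure CPV (p : Set H → (K →L[ℂ] K)) : Prop where
  adj : ∀ C, IsClosed C → adjoint (p C) = p C
  mul : ∀ C D, IsClosed C → IsClosed D → p C * p D = p (C ∩ D)
  univ : p Set.univ = 1
  empty : p ∅ = 0

/-- The hyperplanes which contain an element of `O`. -/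
def hat (I : Y → H → Prop) (O : Set Y) : Set H := {z | ∃ y ∈ O, I y z}

/-- small closed sets -/
def Sm (η : ℝ) (O : Set Y) : Prop := IsClosed O ∧ ∀ y ∈ O, ∀ y' ∈ O, dist y y' ≤ η

/-- The vectors which are orthogonal to the ranges of `p (hat O)`, `O` small. -/
def NN (p : Set H → (K →L[ℂ] K)) (I : Y → H → Prop) (ε : ℝ) : Submodule ℂ K where
  carrier := {ζ | ∀ O, Sm ε O → p (hat I O) ζ = 0}
  add_mem' := fun {a b} ha hb O hO => by rw [map_add, ha O hO, hb O hO, add_zero]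
  zero_mem' := fun O _ => map_zero _
  smul_mem' := fun c a ha O hO => by rw [map_smul, ha O hO, smul_zero]

theorem mem_NN {p : Set H → (K →L[ℂ] K)} {I : Y → H → Prop} {ε : ℝ} {ζ : K} :
    ζ ∈ NN p I ε ↔ ∀ O, Sm ε O → p (hat I O) ζ = 0 := Iff.rfl

/-- `q^d = 1` -/
def Full (p : Set H → (K →L[ℂ] K)) (I : Y → H → Prop) : Prop := ∀ ε > 0, NN p I ε = ⊥

/-- `q^d = 0` -/
def Null (p : Set H → (K →L[ℂ] K)) (I : Y → H → Prop) : Prop :=
  ∀ ζ : K, ∀ κ > 0, ∃ ε > 0, ∃ ζ' ∈ NN p I ε, ‖ζ - ζ'‖ ≤ κ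

/-- Two small sets of `d`-spaces at distance `≥ δ`: the hyperplanes which contain an element of both
contain an element of a small set of `d + 1`-spaces. -/
def LOC (I : Y → H → Prop) (I₁ : Y₁ → H → Prop) : Prop :=
  ∀ δ > 0, ∀ ε > 0, ∃ η > 0, ∀ O O' : Set Y, Sm η O → Sm η O' →
    (∀ y ∈ O, ∀ y' ∈ O', δ ≤ dist y y') →
    ∃ O₁ : Set Y₁, Sm ε O₁ ∧ hat I O ∩ hat I O' ⊆ hat I₁ O₁

/-- Tagged partition of mesh `≤ η`: `e i` orthogonal projections with sum `1` which commute with the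
family `p`, `e i ≤ p (hat O)`, `O ∋ y i` small. -/
structure Part (p : Set H → (K →L[ℂ] K)) (I : Y → H → Prop) (η : ℝ) {N : ℕ}
    (e : Fin N → (K →L[ℂ] K)) (y : Fin N → Y) : Prop where
  adj : ∀ i, adjoint (e i) = e i
  idem : ∀ i, e i * e i = e i
  orth : ∀ i j, i ≠ j → e i * e j = 0
  sum : ∑ i, e i = 1
  le : ∀ i, ∃ O, Sm η O ∧ y i ∈ O ∧ p (hat I O) * e i = e i
  com : ∀ i C, IsClosed C → Commute (e i) (p C)

/-- The partition is made of elements of the algebra of `p`. -/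
def Strong (p : Set H → (K →L[ℂ] K)) {N : ℕ} (e : Fin N → (K →L[ℂ] K)) : Prop :=
  ∀ i T, (∀ C, IsClosed C → Commute T (p C)) → Commute T (e i)

/-- `Σ f(y_i) e_i` -/
noncomputable def AA {N : ℕ} (e : Fin N → (K →L[ℂ] K)) (y : Fin N → Y) (f : C(Y, ℂ)) :
    K →L[ℂ] K := ∑ i, f (y i) • e i

/-- The calculus of the value of `X` in `Y`. -/
structure Calc (p : Set H → (K →L[ℂ] K)) (I : Y → H → Prop)
    (G : C(Y, ℂ) →⋆ₐ[ℂ] (K →L[ℂ] K)) : Prop where
  cm : ∀ T, (∀ C, IsClosed C → Commute T (p C)) → ∀ f, Commute T (G f)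
  ap : ∀ f ζ, ∀ κ > 0, ∀ η > 0, ∃ (N : ℕ) (e : Fin N → (K →L[ℂ] K)) (y : Fin N → Y),
    Part p I η e y ∧ Strong p e ∧ ‖AA e y f ζ - G f ζ‖ ≤ κ

end Vale.Agent.P092.H560
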