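import Vale.Agent.P092.H560.Rk3
import Vale.Agent.P092.H729.Zo
import Vale.Agent.P092.H411.RkAgr

/-!
P092, TEAM N, [N-RK] (helper560): the calculi of all subspaces of a fixed dimension, covariance,
comparison, incidence.  Letters of `H618.RkData`.
-/

set_option linter.all false

open scoped InnerProductSpace
open Set Filter Topology ContinuousLinearMap

namespace Vale.Agent.P092.H560

open Vale.Agent.P092.H618 (RkData RkOut Nin)
open Vale.Agent.P092.H729.Rk (pj R JX)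

section general

variable {K : Type*} [NormedAddCommGroup K] [InnerProductSpace ℂ K] [CompleteSpace K]

theorem pj_conj {V₁ V₂ : Submodule ℂ K} (h₁ : IsClosed (V₁ : Set K)) (h₂ : IsClosed (V₂ : Set K))
    {U V : K →L[ℂ] K} (hUV : U * V = 1) (hVU : V * U = 1) (hU : adjoint U = V)
    (ha : ∀ v ∈ V₁, U v ∈ V₂) (hb : ∀ v ∈ V₂, V v ∈ V₁) : pj V₂ = U * pj V₁ * V := by
  have e1 : pj V₂ * (U * pj V₁) = U * pj V₁ := by
    ext x
    exact H729.Rk.pj_self (ha _ (H729.Rk.pj_mem h₁ x))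
  have e2 : pj V₁ * (V * pj V₂) = V * pj V₂ := by
    ext x
    exact H729.Rk.pj_self (hb _ (H729.Rk.pj_mem h₂ x))
  have hV : star V = U := by rw [star_eq_adjoint, ← hU, adjoint_adjoint]
  have e3 : pj V₂ * U * pj V₁ = pj V₂ * U := by
    have := congrArg star e2
    simp only [star_mul, H729.Rk.pj_star, hV] at this
    exact this
  calc pj V₂ = pj V₂ * (U * V) := by rw [hUV, mul_one]
    _ = (pj V₂ * U) * V := by rw [mul_assoc]
    _ = (pj V₂ * U * pj V₁) * V := by rw [e3]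
    _ = (pj V₂ * (U * pj V₁)) * V := by rw [mul_assoc (pj V₂)]
    _ = _ := by rw [e1]

end general

variable {K : Type} [NormedAddCommGroup K] [InnerProductSpace ℂ K] [CompleteSpace K] {N : ℕ}
  {Y : ℕ → Type} [∀ d, MetricSpace (Y d)] [∀ d, CompactSpace (Y d)]
  {I : ∀ i j, Y i → Y j → Prop} {S : ℕ → Type} {R' : ∀ i j, S i → S j → Prop}
  {Γ H : Type} [Group Γ] [Group H] [∀ d, MulAction Γ (Y d)]
  [∀ d, ContinuousConstSMul Γ (Y d)] [∀ j, MulAction H (S j)]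
  {lamG : Γ →* (K →L[ℂ] K)} {π : H →* (K →L[ℂ] K)} {W : Set (K →L[ℂ] K)}
  {lam : S N → (C(Y N, ℂ) →⋆ₐ[ℂ] (K →L[ℂ] K))}
  {bet : S 1 → (C(Y 1, ℂ) →⋆ₐ[ℂ] (K →L[ℂ] K))}

/-- `p_X(C)` -/
noncomputable def pX (lam : S N → (C(Y N, ℂ) →⋆ₐ[ℂ] (K →L[ℂ] K)))
    (R' : ∀ i j, S i → S j → Prop) {j : ℕ} (X : S j) (C : Set (Y N)) : K →L[ℂ] K :=
  pj (R lam (JX R' X) C)

/-- the compactness consequences of `TGeo` -/
structure LocH (N : ℕ) (I : ∀ i j, Y i → Y j → Prop) : Prop where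
  cl : ∀ d, IsClosed {q : Y d × Y N | I d N q.1 q.2}
  refl : ∀ z z' : Y N, I N N z z' ↔ z = z'
  loc : ∀ d, 1 ≤ d → d < N → LOC (I d N) (I (d + 1) N)
  inc : ∀ i j, 1 ≤ i → i ≤ j → j < N → ∀ (u : C(Y i, ℂ)) (h : C(Y j, ℂ)), Nin (I i j) u h →
    ∀ ε > 0, ∃ η > 0, ∀ O O', Sm η O → Sm η O' → (O ∩ tsupport u).Nonempty →
      (O' ∩ tsupport h).Nonempty → ∃ O₁, Sm ε O₁ ∧
        hat (I i N) O ∩ hat (I j N) O' ⊆ hat (I (j + 1) N) O₁
  incN : ∀ i, 1 ≤ i → i ≤ N → ∀ (u : C(Y i, ℂ)) (h : C(Y N, ℂ)), Nin (I i N) u h →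
    ∃ η > 0, ∀ O O', Sm η O → Sm η O' → (O ∩ tsupport u).Nonempty →
      (O' ∩ tsupport h).Nonempty → hat (I i N) O ∩ hat (I N N) O' = ∅

/-- the level above `d` -/
structure Nxt (p : Set (Y N) → (K →L[ℂ] K)) (I : ∀ i j, Y i → Y j → Prop) (d : ℕ) {Y₁ : Type}
    [MetricSpace Y₁] (I₁ : Y₁ → Y N → Prop) : Prop where
  cl : IsClosed {q : Y₁ × Y N | I₁ q.1 q.2}
  loc : LOC (I d N) I₁
  null : Null p I₁
  inc : ∀ i, 1 ≤ i → i ≤ d → ∀ (u : C(Y i, ℂ)) (h : C(Y d, ℂ)), Nin (I i d) u h →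
    ∀ ε > 0, ∃ η > 0, ∀ O O', Sm η O → Sm η O' → (O ∩ tsupport u).Nonempty →
      (O' ∩ tsupport h).Nonempty → ∃ O₁, Sm ε O₁ ∧
        hat (I i N) O ∩ hat (I d N) O' ⊆ hat I₁ O₁

theorem exists_nxt (hg : LocH N I) (p : Set (Y N) → (K →L[ℂ] K)) (hp : p ∅ = 0) {d : ℕ}
    (h1 : 1 ≤ d) (hd : d ≤ N) (hN : d < N → Null p (I (d + 1) N)) :
    ∃ (Y₁ : Type) (_ : MetricSpace Y₁) (_ : CompactSpace Y₁) (I₁ : Y₁ → Y N → Prop),
      Nxt p I d I₁ := by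
  rcases hd.lt_or_eq with h | rfl
  · exact ⟨Y (d + 1), inferInstance, inferInstance, I (d + 1) N, hg.cl _, hg.loc d h1 h, hN h,
      fun i hi hid u h' hn => hg.inc i d hi hid h u h' hn⟩
  · have h0 : ∀ O : Set Empty, hat (fun (_ : Empty) (_ : Y d) => False) O = ∅ := by
      intro O; ext z; simp [hat]
    have hs : ∀ ε : ℝ, Sm ε (∅ : Set Empty) := fun ε => ⟨isClosed_empty, fun y => y.elim⟩
    refine ⟨Empty, inferInstance, inferInstance, fun _ _ => False, ⟨?_, ?_, ?_, ?_⟩⟩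
    · simp
    · intro δ hδ ε hε
      refine ⟨1, one_pos, fun O O' _ _ hf => ⟨∅, hs ε, ?_⟩⟩
      rintro z ⟨⟨y, hy, hyz⟩, ⟨y', hy', hyz'⟩⟩
      exfalso
      have e1 := (hg.refl _ _).1 hyz
      have e2 := (hg.refl _ _).1 hyz'
      have := hf y hy y' hy'
      rw [e1, e2, dist_self] at this
      linarith
    · intro ζ κ hκ
      refine ⟨1, one_pos, ζ, fun O _ => ?_, by simpa using hκ.le⟩
      rw [h0, hp]; rfl
    · intro i hi hid u h hn ε hε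
      obtain ⟨η, hη, hh⟩ := hg.incN i hi hid u h hn
      refine ⟨η, hη, fun O O' hO hO' h1 h2 => ⟨∅, hs ε, ?_⟩⟩
      rw [hh O O' hO hO' h1 h2]
      exact empty_subset _

theorem pX_cpv (D : RkData N I R' Γ H lamG π W lam bet) {j : ℕ} (h1 : 1 ≤ j) (hj : j ≤ N)
    (X : S j) : CPV (pX lam R' X) := H729.Rk.cpv (H729.Rk.JX_nonempty D h1 hj X)

theorem pX_le (D : RkData N I R' Γ H lamG π W lam bet) {i j : ℕ} {X : S i} {X' : S j}
    (h : R' i j X X') (C : Set (Y N)) : pX lam R' X' C * pX lam R' X C = pX lam R' X C :=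
  H729.Rk.pj_R_le (H729.Rk.JX_anti D h) C

theorem pX_comm (D : RkData N I R' Γ H lamG π W lam bet) {i j : ℕ} {X : S i} {X' : S j}
    (h : R' i j X X') (C E : Set (Y N)) : Commute (pX lam R' X C) (pX lam R' X' E) :=
  H729.Rk.commute_R (H729.Rk.JX_anti D h) C E

theorem pX_pi (D : RkData N I R' Γ H lamG π W lam bet) (g : H) {j : ℕ} (X : S j)
    (C : Set (Y N)) : pX lam R' (g • X) C = π g * pX lam R' X C * π g⁻¹ := by
  refine pj_conj (H729.Rk.R_closed _) (H729.Rk.R_closed _)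
    (by rw [← map_mul, mul_inv_cancel, map_one]) (by rw [← map_mul, inv_mul_cancel, map_one])
    (D.uπ g) (H729.Rk.R_pi D g X C) fun v hv => ?_
  have := H729.Rk.R_pi D g⁻¹ (g • X) C v hv
  rwa [inv_smul_smul] at this

theorem pX_gam (D : RkData N I R' Γ H lamG π W lam bet) (γ : Γ) {j : ℕ} (X : S j)
    (C : Set (Y N)) :
    pX lam R' X C = lamG γ * pX lam R' X (Homeomorph.smul γ ⁻¹' C) * lamG γ⁻¹ := by
  refine pj_conj (H729.Rk.R_closed _) (H729.Rk.R_closed _)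
    (by rw [← map_mul, mul_inv_cancel, map_one]) (by rw [← map_mul, inv_mul_cancel, map_one])
    (D.uG γ) (H729.Rk.R_gam D γ X fun z hz => hz) (H729.Rk.R_gam D γ⁻¹ X fun z hz => ?_)
  change γ • γ⁻¹ • z ∈ C
  rwa [smul_inv_smul]

/-- The dimension of the value of the `j`-spaces is `d`. -/
def Lvl (lam : S N → (C(Y N, ℂ) →⋆ₐ[ℂ] (K →L[ℂ] K))) (R' : ∀ i j, S i → S j → Prop)
    (I : ∀ i j, Y i → Y j → Prop) (j d : ℕ) : Prop :=
  1 ≤ d ∧ d ≤ N ∧ ∀ X : S j, Full (pX lam R' X) (I d N) ∧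
    (d < N → Null (pX lam R' X) (I (d + 1) N))

theorem Lvl.nxt (hg : LocH N I) (D : RkData N I R' Γ H lamG π W lam bet) {j d : ℕ} (h1 : 1 ≤ j)
    (hj : j ≤ N) (h : Lvl lam R' I j d) (X : S j) :
    ∃ (Y₁ : Type) (_ : MetricSpace Y₁) (_ : CompactSpace Y₁) (I₁ : Y₁ → Y N → Prop),
      Nxt (pX lam R' X) I d I₁ :=
  exists_nxt hg _ (pX_cpv D h1 hj X).empty h.1 h.2.1 (h.2.2 X).2

theorem Lvl.exists_calc (hg : LocH N I) (D : RkData N I R' Γ H lamG π W lam bet) {j d : ℕ}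
    (h1 : 1 ≤ j) (hj : j ≤ N) (h : Lvl lam R' I j d) :
    ∃ E : S j → (C(Y d, ℂ) →⋆ₐ[ℂ] (K →L[ℂ] K)), ∀ X, Calc (pX lam R' X) (I d N) (E X) := by
  have : ∀ X : S j, ∃ G : C(Y d, ℂ) →⋆ₐ[ℂ] (K →L[ℂ] K), Calc (pX lam R' X) (I d N) G := by
    intro X
    obtain ⟨Y₁, _, _, I₁, hn⟩ := h.nxt hg D h1 hj X
    exact H560.exists_calc (pX_cpv D h1 hj X) (hg.cl d) hn.cl hn.loc (h.2.2 X).1 hn.null
  choose E hE using this
  exact ⟨E, hE⟩

theorem Lvl.unique (hg : LocH N I) (D : RkData N I R' Γ H lamG π W lam bet) {j d : ℕ}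
    (h1 : 1 ≤ j) (hj : j ≤ N) (h : Lvl lam R' I j d) {X : S j}
    {G G' : C(Y d, ℂ) →⋆ₐ[ℂ] (K →L[ℂ] K)} (hG : Calc (pX lam R' X) (I d N) G)
    (hG' : Calc (pX lam R' X) (I d N) G') : ∀ f, G f = G' f := by
  obtain ⟨Y₁, _, _, I₁, hn⟩ := h.nxt hg D h1 hj X
  exact calc_unique (pX_cpv D h1 hj X) (hg.cl d) hn.cl hn.loc hn.null hG hG'

/-- comparison -/
theorem Lvl.eq_of_le (hg : LocH N I) (D : RkData N I R' Γ H lamG π W lam bet) {i j d : ℕ}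
    (h1 : 1 ≤ j) (hj : j ≤ N) (h : Lvl lam R' I j d) {X : S i} {X' : S j} (hX : R' i j X X')
    {G G' : C(Y d, ℂ) →⋆ₐ[ℂ] (K →L[ℂ] K)} (hG : Calc (pX lam R' X) (I d N) G)
    (hG' : Calc (pX lam R' X') (I d N) G') : ∀ f, G f = G' f := by
  obtain ⟨Y₁, _, _, I₁, hn⟩ := h.nxt hg D h1 hj X'
  exact calc_eq (pX_cpv D h1 hj X') (hg.cl d) hn.cl hn.loc hn.null (fun C _ => pX_le D hX C)
    (fun C E _ _ => pX_comm D hX C E) hG hG'

section cov

variable {j d : ℕ} {E : S j → (C(Y d, ℂ) →⋆ₐ[ℂ] (K →L[ℂ] K))}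

theorem fam_cen {X : S j} (hE : Calc (pX lam R' X) (I d N) (E X)) {T : K →L[ℂ] K}
    (hT : ∀ M f, R' j N X M → T * lam M f = lam M f * T) (f : C(Y d, ℂ)) :
    T * E X f = E X f * T :=
  hE.cm T (fun C _ => H729.Rk.commute_pj_R (fun M hM f => hT M f hM) C) f

theorem fam_covW (D : RkData N I R' Γ H lamG π W lam bet) {X : S j}
    (hE : Calc (pX lam R' X) (I d N) (E X)) {w : K →L[ℂ] K} (hw : w ∈ W) (f : C(Y d, ℂ)) :
    w * E X f = E X f * w :=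
  fam_cen hE (fun M f _ => D.covW w hw M f) f

theorem fam_covG (hg : LocH N I) (D : RkData N I R' Γ H lamG π W lam bet) (h1 : 1 ≤ j)
    (hj : j ≤ N) (h : Lvl lam R' I j d) {X : S j} (hE : Calc (pX lam R' X) (I d N) (E X)) (γ : Γ)
    (f : C(Y d, ℂ)) : lamG γ * E X f * lamG γ⁻¹ =
      E X (f.comp ⟨fun y => γ⁻¹ • y, continuous_const_smul γ⁻¹⟩) := by
  have hc := hE.map (p' := pX lam R' X) (hg.cl d) (lamG γ) (lamG γ⁻¹)
    (by rw [← map_mul, mul_inv_cancel, map_one]) (by rw [← map_mul, inv_mul_cancel, map_one])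
    (D.uG γ) ⟨fun y => γ • y, continuous_const_smul γ⟩ (Homeomorph.smul γ)
    (fun C _ => pX_gam D γ X C) (fun y z hyz => D.gI γ d N y z hyz) (fun y z hyz => by
      have := D.gI γ⁻¹ d N _ _ hyz
      have e1 : γ⁻¹ • (γ • y) = y := inv_smul_smul γ y
      have e2 : γ⁻¹ • (γ • z) = z := inv_smul_smul γ z
      change I d N (γ⁻¹ • (γ • y)) (γ⁻¹ • (γ • z)) at this
      rwa [e1, e2] at this)
  have h2 := h.unique hg D h1 hj hc hE (f.comp ⟨fun y => γ⁻¹ • y, continuous_const_smul γ⁻¹⟩)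
  rw [conj_apply] at h2
  rw [← h2]
  congr 3
  ext y
  change f y = f (γ⁻¹ • γ • y)
  rw [inv_smul_smul]

theorem fam_covP (hg : LocH N I) (D : RkData N I R' Γ H lamG π W lam bet) (h1 : 1 ≤ j)
    (hj : j ≤ N) (h : Lvl lam R' I j d) (hE : ∀ X, Calc (pX lam R' X) (I d N) (E X)) (X : S j)
    (g : H) (f : C(Y d, ℂ)) : π g * E X f * π g⁻¹ = E (g • X) f := by
  have hc := (hE X).map (p' := pX lam R' (g • X)) (hg.cl d) (π g) (π g⁻¹)
    (by rw [← map_mul, mul_inv_cancel, map_one]) (by rw [← map_mul, inv_mul_cancel, map_one])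
    (D.uπ g) (ContinuousMap.id _) (Homeomorph.refl _)
    (fun C _ => pX_pi D g X C) (fun y z hyz => hyz) (fun y z hyz => hyz)
  have h2 := h.unique hg D h1 hj hc (hE (g • X)) f
  rw [conj_apply, ContinuousMap.comp_id] at h2
  exact h2

end cov

/-- nested calculi commute -/
theorem fam_com (D : RkData N I R' Γ H lamG π W lam bet) {i j a b : ℕ} {X : S i} {X' : S j}
    (hX : R' i j X X') {G : C(Y a, ℂ) →⋆ₐ[ℂ] (K →L[ℂ] K)} {G' : C(Y b, ℂ) →⋆ₐ[ℂ] (K →L[ℂ] K)}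
    (hG : Calc (pX lam R' X) (I a N) G) (hG' : Calc (pX lam R' X') (I b N) G') (f f') :
    Commute (G f) (G' f') :=
  hG'.cm _ (fun C _ => (hG.cm _ (fun E _ => (pX_comm D hX E C).symm) f).symm) f'

theorem fam_inc (hg : LocH N I) (D : RkData N I R' Γ H lamG π W lam bet) {i j a b : ℕ}
    (hj1 : 1 ≤ j) (hj : j ≤ N) (ha : 1 ≤ a) (hab : a ≤ b) (h : Lvl lam R' I j b)
    {X : S i} {X' : S j} (hX : R' i j X X') {G : C(Y a, ℂ) →⋆ₐ[ℂ] (K →L[ℂ] K)}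
    {G' : C(Y b, ℂ) →⋆ₐ[ℂ] (K →L[ℂ] K)} (hG : Calc (pX lam R' X) (I a N) G)
    (hG' : Calc (pX lam R' X') (I b N) G') (u v) (hn : Nin (I a b) u v) : G u * G' v = 0 := by
  obtain ⟨Y₁, _, _, I₁, hx⟩ := h.nxt hg D hj1 hj X'
  exact calc_inc (pX_cpv D hj1 hj X') (hg.cl a) (hg.cl b) hx.cl (fun C _ => pX_le D hX C)
    (fun C E _ _ => pX_comm D hX C E) hx.null hG hG' u v (hx.inc a ha hab u v hn)

end Vale.Agent.P092.H560
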