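import Vale.Agent.P092.H560.Rk4

/-!
P092, TEAM N, [N-RK] (helper560): the rank count `D_j = j` and the assembly of `RkOut`.
-/

set_option linter.all false

open scoped InnerProductSpace
open Set Filter Topology ContinuousLinearMap

namespace Vale.Agent.P092.H560

open Vale.Agent.P092.H618 (RkData RkOut Nin)
open Vale.Agent.P092.H729.Rk (pj R JX q)

variable {K : Type} [NormedAddCommGroup K] [InnerProductSpace ℂ K] [CompleteSpace K] {N : ℕ}
  {Y : ℕ → Type} [∀ d, MetricSpace (Y d)] [∀ d, CompactSpace (Y d)]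
  {I : ∀ i j, Y i → Y j → Prop} {S : ℕ → Type} {R' : ∀ i j, S i → S j → Prop}
  {Γ H : Type} [Group Γ] [Group H] [∀ d, MulAction Γ (Y d)]
  [∀ d, ContinuousConstSMul Γ (Y d)] [∀ j, MulAction H (S j)]
  {lamG : Γ →* (K →L[ℂ] K)} {π : H →* (K →L[ℂ] K)} {W : Set (K →L[ℂ] K)}
  {lam : S N → (C(Y N, ℂ) →⋆ₐ[ℂ] (K →L[ℂ] K))}
  {bet : S 1 → (C(Y 1, ℂ) →⋆ₐ[ℂ] (K →L[ℂ] K))}

section rank

variable (lam R' I)

open Classical in
/-- the dimension of the value of `X` -/
noncomputable def DD {j : ℕ} (X : S j) : ℕ :=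
  Nat.findGreatest (fun d => q lam (JX R' X) (I d N) = ⊤) N

/-- every point has full points -/
def Pt : Prop := ∀ c : S 1, q lam (JX R' c) (I 1 N) = ⊤

variable {lam R' I}

theorem q_one (D : RkData N I R' Γ H lamG π W lam bet) (hpt : Pt I R' lam) {j : ℕ} (h1 : 1 ≤ j)
    (hj : j ≤ N) (X : S j) : q lam (JX R' X) (I 1 N) = ⊤ := by
  obtain ⟨c, hc⟩ := D.sgeo.pnt j h1 hj X
  exact H729.Rk.q_top_mono D hc (hpt c)

theorem DD_spec (D : RkData N I R' Γ H lamG π W lam bet) (hpt : Pt I R' lam) {j : ℕ} (h1 : 1 ≤ j)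
    (hj : j ≤ N) (X : S j) : q lam (JX R' X) (I (DD I R' lam X) N) = ⊤ := by
  classical
  exact Nat.findGreatest_spec (P := fun d => q lam (JX R' X) (I d N) = ⊤) D.hN
    (q_one D hpt h1 hj X)

theorem one_le_DD (D : RkData N I R' Γ H lamG π W lam bet) (hpt : Pt I R' lam) {j : ℕ}
    (h1 : 1 ≤ j) (hj : j ≤ N) (X : S j) : 1 ≤ DD I R' lam X := by
  classical
  exact Nat.le_findGreatest D.hN (q_one D hpt h1 hj X)

theorem DD_le {j : ℕ} (X : S j) : DD I R' lam X ≤ N := by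
  classical
  exact Nat.findGreatest_le _

theorem le_DD {j d : ℕ} {X : S j} (hd : d ≤ N) (h : q lam (JX R' X) (I d N) = ⊤) :
    d ≤ DD I R' lam X := by
  classical
  exact Nat.le_findGreatest hd h

theorem lvl_DD (D : RkData N I R' Γ H lamG π W lam bet) (hpt : Pt I R' lam) {j : ℕ} (h1 : 1 ≤ j)
    (hj : j ≤ N) (X : S j) : Lvl lam R' I j (DD I R' lam X) := by
  refine ⟨one_le_DD D hpt h1 hj X, DD_le X, fun X' => ⟨?_, fun hlt => ?_⟩⟩
  · exact H729.Rk.full_of_top (H729.Rk.JX_nonempty D h1 hj X')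
      (H729.Rk.q_top_all D h1 hj (DD_spec D hpt h1 hj X) X')
  · rcases H729.Rk.q_zo D h1 hj X' (DD I R' lam X + 1) with h | h
    · exfalso
      have h2 := le_DD (Nat.succ_le_of_lt hlt) (H729.Rk.q_top_all D h1 hj h X)
      omega
    · exact H729.Rk.null_of_bot (H729.Rk.JX_nonempty D h1 hj X') h

theorem DD_mono (D : RkData N I R' Γ H lamG π W lam bet) (hpt : Pt I R' lam) {i j : ℕ}
    (h1 : 1 ≤ i) (hi : i ≤ N) {X : S i} {X' : S j} (hX : R' i j X X') :
    DD I R' lam X ≤ DD I R' lam X' :=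
  le_DD (DD_le X) (H729.Rk.q_top_mono D hX (DD_spec D hpt h1 hi X))

theorem DD_tra (D : RkData N I R' Γ H lamG π W lam bet) (hpt : Pt I R' lam) {j : ℕ} (h1 : 1 ≤ j)
    (hj : j ≤ N) (X X' : S j) : DD I R' lam X = DD I R' lam X' :=
  le_antisymm (le_DD (DD_le X) (H729.Rk.q_top_all D h1 hj (DD_spec D hpt h1 hj X) X'))
    (le_DD (DD_le X') (H729.Rk.q_top_all D h1 hj (DD_spec D hpt h1 hj X') X))

theorem DD_lt (hg : LocH N I) (D : RkData N I R' Γ H lamG π W lam bet) (hpt : Pt I R' lam)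
    {j : ℕ} (h1 : 1 ≤ j) (hj : j < N) {X : S j} {Z : S (j + 1)} (hX : R' j (j + 1) X Z) :
    DD I R' lam X < DD I R' lam Z := by
  by_contra hlt
  have he : DD I R' lam Z = DD I R' lam X :=
    le_antisymm (not_lt.1 hlt) (DD_mono D hpt h1 hj.le hX)
  have hl := lvl_DD D hpt h1 hj.le X
  have hl' := lvl_DD D hpt (by omega) hj Z
  rw [he] at hl'
  obtain ⟨E, hE⟩ := hl.exists_calc hg D h1 hj.le
  obtain ⟨E', hE'⟩ := hl'.exists_calc hg D (by omega) hj
  have step : ∀ A B : S j, (∃ Z : S (j + 1), R' j (j + 1) A Z ∧ R' j (j + 1) B Z) →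
      ∀ f, E A f = E B f := by
    rintro A B ⟨Z, hA, hB⟩ f
    rw [hl'.eq_of_le hg D (by omega) hj hA (hE A) (hE' Z) f,
      hl'.eq_of_le hg D (by omega) hj hB (hE B) (hE' Z) f]
  have all : ∀ A B : S j, ∀ f, E A f = E B f := by
    intro A B f
    have h := D.sgeo.con j h1 hj A B
    induction h with
    | refl => rfl
    | tail _ h ih => rw [ih, step _ _ h f]
  exact H411.rk_const D hl.1 hl.2.1 (fun X γ f => fam_covG hg D h1 hj.le hl (hE X) γ f)
    (fun X g f => fam_covP hg D h1 hj.le hl hE X g f)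
    (fun X w hw f => fam_covW D (hE X) hw f) X (fun g f => all _ _ f)

theorem exists_up (hg : LocH N I) (D : RkData N I R' Γ H lamG π W lam bet) (hpt : Pt I R' lam)
    {j : ℕ} (h1 : 1 ≤ j) (hj : j < N) (X : S j) : ∃ Z : S (j + 1), R' j (j + 1) X Z := by
  by_contra hno
  have hl := lvl_DD D hpt h1 hj.le X
  obtain ⟨E, hE⟩ := hl.exists_calc hg D h1 hj.le
  have hX : ∀ X' : S j, X' = X := by
    intro X'
    rcases Relation.ReflTransGen.cases_head (D.sgeo.con j h1 hj X X') with h | ⟨B, hB, _⟩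
    · exact h.symm
    · exact absurd ⟨hB.choose, hB.choose_spec.1⟩ hno
  exact H411.rk_const D hl.1 hl.2.1 (fun X γ f => fam_covG hg D h1 hj.le hl (hE X) γ f)
    (fun X g f => fam_covP hg D h1 hj.le hl hE X g f)
    (fun X w hw f => fam_covW D (hE X) hw f) X (fun g f => by rw [hX (g • X)])

theorem DD_le_self (hg : LocH N I) (D : RkData N I R' Γ H lamG π W lam bet)
    (hpt : Pt I R' lam) : ∀ k j : ℕ, j + k = N → 1 ≤ j → ∀ X : S j, DD I R' lam X ≤ j := by
  intro k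
  induction k with
  | zero =>
    intro j hjk h1 X
    exact (DD_le X).trans (by omega)
  | succ k ih =>
    intro j hjk h1 X
    obtain ⟨Z, hZ⟩ := exists_up hg D hpt h1 (by omega) X
    have h2 := DD_lt hg D hpt h1 (by omega) hZ
    have h3 := ih (j + 1) (by omega) (by omega) Z
    omega

theorem exists_ge (hg : LocH N I) (D : RkData N I R' Γ H lamG π W lam bet) (hpt : Pt I R' lam)
    (c : S 1) {j : ℕ} (h1 : 1 ≤ j) : j ≤ N → ∃ X : S j, j ≤ DD I R' lam X := by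
  induction j, h1 using Nat.le_induction with
  | base => exact fun hj => ⟨c, one_le_DD D hpt le_rfl hj c⟩
  | succ j h1 ih =>
    intro hj
    obtain ⟨X, hX⟩ := ih (by omega)
    obtain ⟨Z, hZ⟩ := exists_up hg D hpt h1 (by omega) X
    have := DD_lt hg D hpt h1 (by omega) hZ
    exact ⟨Z, by omega⟩

theorem DD_eq (hg : LocH N I) (D : RkData N I R' Γ H lamG π W lam bet) (hpt : Pt I R' lam)
    {j : ℕ} (h1 : 1 ≤ j) (hj : j ≤ N) (X : S j) : DD I R' lam X = j := by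
  refine le_antisymm (DD_le_self hg D hpt (N - j) j (by omega) h1 X) ?_
  obtain ⟨c, _⟩ := D.sgeo.pnt j h1 hj X
  obtain ⟨X', hX'⟩ := exists_ge hg D hpt c h1 hj
  rwa [DD_tra D hpt h1 hj X X']

/-- **The rank count.** -/
theorem lvl_self (hg : LocH N I) (D : RkData N I R' Γ H lamG π W lam bet) (hpt : Pt I R' lam)
    {j : ℕ} (h1 : 1 ≤ j) (hj : j ≤ N) : Lvl lam R' I j j := by
  refine ⟨h1, hj, fun X => ?_⟩
  have := lvl_DD D hpt h1 hj X
  rw [DD_eq hg D hpt h1 hj X] at this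
  exact this.2.2 X

end rank

theorem tsupport_star {X : Type*} [TopologicalSpace X] (f : C(X, ℂ)) :
    tsupport (star f : C(X, ℂ)) = tsupport f := by
  unfold tsupport
  congr 1
  ext x
  simp [Function.mem_support]

/-- **The output of the rank count.** -/
theorem rkOut (hg : LocH N I) (hne : ∀ j, S j → Nonempty (Y j))
    (D : RkData N I R' Γ H lamG π W lam bet) (hpt : Pt I R' lam)
    (hlam : ∀ M (f : C(Y N, ℂ)) ξ, lam M f ξ ∈ R lam (JX R' M) (tsupport f))
    (hbet : ∀ c (u : C(Y 1, ℂ)) U, IsClosed U → tsupport u ⊆ U → ∀ ξ,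
      bet c u ξ ∈ R lam (JX R' c) (hat (I 1 N) U)) :
    ∃ G : ∀ j, S j → (C(Y j, ℂ) →⋆ₐ[ℂ] (K →L[ℂ] K)), RkOut N I R' Γ H lamG π W lam bet G := by
  have hex : ∀ j, ∃ E : S j → (C(Y j, ℂ) →⋆ₐ[ℂ] (K →L[ℂ] K)), 1 ≤ j → j ≤ N →
      ∀ X, Calc (pX lam R' X) (I j N) (E X) := by
    intro j
    by_cases h : 1 ≤ j ∧ j ≤ N
    · obtain ⟨E, hE⟩ := (lvl_self hg D hpt h.1 h.2).exists_calc hg D h.1 h.2
      exact ⟨E, fun _ _ => hE⟩
    · refine ⟨fun X => (StarAlgHom.ofId ℂ (K →L[ℂ] K)).comp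
        (ContinuousMap.evalStarAlgHom ℂ ℂ (hne j X).some), fun h1 h2 => absurd ⟨h1, h2⟩ h⟩
  choose G hG using hex
  refine ⟨G, ?_, ?_, ?_, ?_, ?_, ?_, ?_, ?_, ?_⟩
  · intro M f
    have hl := lvl_self hg D hpt D.hN le_rfl
    obtain ⟨Y₁, _, _, I₁, hx⟩ := hl.nxt hg D D.hN le_rfl M
    refine calc_beta (pX_cpv D D.hN le_rfl M) (hg.cl N) hx.cl hx.loc hx.null (lam M) ?_
      (hG N D.hN le_rfl M) f
    intro u O hO hu
    have hM : M ∈ JX (N := N) R' M := (D.sgeo.refl N M M).2 rfl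
    have hc : Commute (lam M u) (pX lam R' M (hat (I N N) O)) :=
      H729.Rk.lm_commute_pj_R hM u _
    rw [hc.eq]
    ext ξ
    refine H729.Rk.pj_self (H729.Rk.R_mono ?_ (hlam M u ξ))
    intro z hz
    exact ⟨z, hu hz, (hg.refl z z).2 rfl⟩
  · intro c f
    have hl := lvl_self hg D hpt le_rfl D.hN
    obtain ⟨Y₁, _, _, I₁, hx⟩ := hl.nxt hg D le_rfl D.hN c
    refine calc_beta (pX_cpv D le_rfl D.hN c) (hg.cl 1) hx.cl hx.loc hx.null (bet c) ?_
      (hG 1 le_rfl D.hN c) f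
    intro u O hO hu
    have h1 : pX lam R' c (hat (I 1 N) O) * bet c (star u) = bet c (star u) := by
      ext ξ
      exact H729.Rk.pj_self (hbet c (star u) O hO (by rwa [tsupport_star]) ξ)
    have h2 := congrArg star h1
    rw [star_mul, map_star, star_star] at h2
    have h3 : star (pX lam R' c (hat (I 1 N) O)) = pX lam R' c (hat (I 1 N) O) :=
      H729.Rk.pj_star _
    rwa [h3] at h2
  · intro j h1 hj X T hT f
    exact fam_cen (E := G j) (hG j h1 hj X) (fun M f hM => hT M f hM) f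
  · intro i j h1 hij hj X X' hX f f'
    exact fam_com D hX (hG i h1 (hij.trans hj) X) (hG j (h1.trans hij) hj X') f f'
  · intro i j h1 hij hj X X' hX u h hn
    exact fam_inc hg D (h1.trans hij) hj h1 hij (lvl_self hg D hpt (h1.trans hij) hj) hX
      (hG i h1 (hij.trans hj) X) (hG j (h1.trans hij) hj X') u h hn
  · intro j h1 hj X γ f
    exact fam_covG hg D h1 hj (lvl_self hg D hpt h1 hj) (hG j h1 hj X) γ f
  · intro j h1 hj X g f
    exact fam_covP hg D h1 hj (lvl_self hg D hpt h1 hj) (hG j h1 hj) X g f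
  · intro j h1 hj X w hw f
    exact fam_covW D (hG j h1 hj X) hw f
  · intro j h1 hj A B hAB hX
    have h1' : 1 ≤ j + 1 := by omega
    have hl := lvl_self hg D hpt h1' hj
    exact H411.rk_agr D h1 hj (E := G (j + 1))
      (fun X γ f => fam_covG hg D h1' hj hl (hG (j + 1) h1' hj X) γ f)
      (fun X g f => fam_covP hg D h1' hj hl (hG (j + 1) h1' hj) X g f)
      (fun X w hw f => fam_covW D (hG (j + 1) h1' hj X) hw f) A B hAB hX

end Vale.Agent.P092.H560
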